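import Vale.Agent.P167.QB.Far

/-!
# P167, general `q`, block Q-ND: blocks of consecutive nested strands around a boundary site

`Up q D ω l P`: `P` is a set of strands around `q l` which contains with a strand all outer strands.
Such a set consists of the strands around a boundary site (`up_pos`). The signs of a difference of
two such sets sum to `0` or `± 1` (`blk_sum`), so the product of the weights with a constant mass `- x`,
`0 ≤ x ≤ θ`, is at least `1 / 2` (`blk_ge`).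
-/

namespace Vale.Agent.P167.H208.ND

open Finset Relation Vale.Agent.P167.BR
open Vale.Agent.P167.E6 (IsPolygon Encloses)
open Vale.Agent.P167.H718 (IsXY IsCl Cl isCl_strand side_const)
open Vale.Agent.P167.QX (lo hi exists_xy lo_xy hi_xy wB)
open Vale.Agent.P167.QB (gB Ard sg sgm ep sum_alt sg_cases sg_xy ard_lp non_cross vis_inner sep_ard
  sgm_sub_bd)

variable {D Z : Finset (ℤ × ℤ)} {ω : Cfg} {n : ℕ} {q : ZMod n → ℤ × ℤ} {A B : Finset Ed}
  {x y w m l k : ℕ} {θ : ℝ} {P P' : Finset Ed → Prop}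

/-! ### products with two values -/

/-- A product with two values `d ≥ 1`, `p ≥ 1 / 2`, `d p ≥ 1`, almost balanced. -/
theorem two_ge {ι : Type*} (T : Finset ι) (s : ι → ℤ) (hs : ∀ i ∈ T, s i = 1 ∨ s i = -1)
    (h : |∑ i ∈ T, s i| ≤ 1) {d p : ℝ} (hd : 1 ≤ d) (hp : 1 / 2 ≤ p) (hdp : 1 ≤ d * p) :
    1 / 2 ≤ ∏ i ∈ T, if s i = 1 then d else p := by
  classical
  have e : ∏ i ∈ T, (if s i = 1 then d else p) =
      d ^ (T.filter (fun i => s i = 1)).card * p ^ (T.filter (fun i => ¬ s i = 1)).card := by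
    rw [prod_ite, prod_const, prod_const]
  have e2 : ∑ i ∈ T, s i = (T.filter (fun i => s i = 1)).card -
      (T.filter (fun i => ¬ s i = 1)).card := by
    rw [← sum_filter_add_sum_filter_not T (fun i => s i = 1)]
    rw [sum_congr rfl (fun i hi => (mem_filter.1 hi).2),
      sum_congr (s₁ := T.filter fun i => ¬ s i = 1) rfl (fun i hi =>
        ((hs i (mem_filter.1 hi).1).resolve_left (mem_filter.1 hi).2 : s i = -1))]
    simp only [sum_const, nsmul_eq_mul]
    ring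
  rw [e]
  obtain ⟨N, hN⟩ : ∃ N, N = (T.filter (fun i => s i = 1)).card := ⟨_, rfl⟩
  obtain ⟨K, hK⟩ : ∃ K, K = (T.filter (fun i => ¬ s i = 1)).card := ⟨_, rfl⟩
  rw [← hN, ← hK] at e2 ⊢
  rw [e2, abs_le] at h
  have hd0 : 0 < d := by linarith
  have hp0 : 0 < p := by linarith
  rcases le_or_gt K N with h1 | h1
  · have h2 : d ^ N * p ^ K = d ^ (N - K) * (d * p) ^ K := by
      rw [mul_pow, ← mul_assoc, ← pow_add]; congr 2; omega
    rw [h2]
    have h3 := one_le_pow₀ hd (n := N - K)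
    have h4 := one_le_pow₀ hdp (n := K)
    nlinarith
  · have h5 : K = N + 1 := by omega
    have h2 : d ^ N * p ^ K = (d * p) ^ N * p := by
      rw [h5, mul_pow, pow_succ]; ring
    rw [h2]
    have h4 := one_le_pow₀ hdp (n := N)
    nlinarith

/-- The balanced product if `d p = 1`. -/
theorem two_le {ι : Type*} (T : Finset ι) (s : ι → ℤ) (hs : ∀ i ∈ T, s i = 1 ∨ s i = -1)
    (h : |∑ i ∈ T, s i| ≤ 1) {d p : ℝ} (hd : 1 ≤ d) (hd2 : d ≤ 2) (hdp : d * p = 1) :
    ∏ i ∈ T, (if s i = 1 then d else p) ≤ 2 := by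
  classical
  have e : ∏ i ∈ T, (if s i = 1 then d else p) =
      d ^ (T.filter (fun i => s i = 1)).card * p ^ (T.filter (fun i => ¬ s i = 1)).card := by
    rw [prod_ite, prod_const, prod_const]
  have e2 : ∑ i ∈ T, s i = (T.filter (fun i => s i = 1)).card -
      (T.filter (fun i => ¬ s i = 1)).card := by
    rw [← sum_filter_add_sum_filter_not T (fun i => s i = 1)]
    rw [sum_congr rfl (fun i hi => (mem_filter.1 hi).2),
      sum_congr (s₁ := T.filter fun i => ¬ s i = 1) rfl (fun i hi =>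
        ((hs i (mem_filter.1 hi).1).resolve_left (mem_filter.1 hi).2 : s i = -1))]
    simp only [sum_const, nsmul_eq_mul]
    ring
  rw [e]
  obtain ⟨N, hN⟩ : ∃ N, N = (T.filter (fun i => s i = 1)).card := ⟨_, rfl⟩
  obtain ⟨K, hK⟩ : ∃ K, K = (T.filter (fun i => ¬ s i = 1)).card := ⟨_, rfl⟩
  rw [← hN, ← hK] at e2 ⊢
  rw [e2, abs_le] at h
  have hd0 : 0 < d := by linarith
  rcases le_or_gt K N with h1 | h1
  · have h2 : d ^ N * p ^ K = d ^ (N - K) * (d * p) ^ K := by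
      rw [mul_pow, ← mul_assoc, ← pow_add]; congr 2; omega
    rw [h2, hdp, one_pow, mul_one]
    have h3 : N - K = 0 ∨ N - K = 1 := by omega
    rcases h3 with h3 | h3 <;> rw [h3]
    · norm_num
    · simpa using hd2
  · have h5 : K = N + 1 := by omega
    have h2 : d ^ N * p ^ K = (d * p) ^ N * p := by
      rw [h5, mul_pow, pow_succ]; ring
    rw [h2, hdp, one_pow, one_mul]
    have : p = 1 / d := by field_simp; linarith
    rw [this, div_le_iff₀ hd0]
    linarith

/-- Comparison with the geometric mean of the two values. -/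
theorem two_cmp {ι : Type*} (T : Finset ι) (s : ι → ℤ) (hs : ∀ i ∈ T, s i = 1 ∨ s i = -1)
    (h : |∑ i ∈ T, s i| ≤ 1) {d p v M : ℝ} (hd : 1 ≤ d) (hp : 1 / 2 ≤ p) (hv : 1 ≤ v)
    (hdp : v ^ 2 = d * p) (hdM : d ≤ M) (hpM : p ≤ M) (hvM : v ≤ M) :
    (∏ i ∈ T, if s i = 1 then d else p) ≤ M * ∏ _i ∈ T, v ∧
      ∏ _i ∈ T, v ≤ 2 * M * ∏ i ∈ T, if s i = 1 then d else p := by
  classical
  have e : ∏ i ∈ T, (if s i = 1 then d else p) =
      d ^ (T.filter (fun i => s i = 1)).card * p ^ (T.filter (fun i => ¬ s i = 1)).card := by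
    rw [prod_ite, prod_const, prod_const]
  have e2 : ∑ i ∈ T, s i = (T.filter (fun i => s i = 1)).card -
      (T.filter (fun i => ¬ s i = 1)).card := by
    rw [← sum_filter_add_sum_filter_not T (fun i => s i = 1)]
    rw [sum_congr rfl (fun i hi => (mem_filter.1 hi).2),
      sum_congr (s₁ := T.filter fun i => ¬ s i = 1) rfl (fun i hi =>
        ((hs i (mem_filter.1 hi).1).resolve_left (mem_filter.1 hi).2 : s i = -1))]
    simp only [sum_const, nsmul_eq_mul]
    ring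
  have e3 : T.card = (T.filter (fun i => s i = 1)).card + (T.filter (fun i => ¬ s i = 1)).card := by
    rw [card_filter_add_card_filter_not]
  rw [e, prod_const, e3]
  obtain ⟨N, hN⟩ : ∃ N, N = (T.filter (fun i => s i = 1)).card := ⟨_, rfl⟩
  obtain ⟨K, hK⟩ : ∃ K, K = (T.filter (fun i => ¬ s i = 1)).card := ⟨_, rfl⟩
  rw [← hN, ← hK] at e2 ⊢
  rw [e2, abs_le] at h
  have hd0 : 0 < d := by linarith
  have hp0 : 0 < p := by linarith
  have hM1 : 1 ≤ M := hd.trans hdM
  have hcase : K = N ∨ N = K + 1 ∨ K = N + 1 := by omega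
  rcases hcase with h1 | h1 | h1
  · have h2 : d ^ N * p ^ K = v ^ (N + K) := by
      rw [h1, ← mul_pow, ← hdp, ← pow_mul]; congr 1; ring
    rw [h2]
    have h3 : 0 < v ^ (N + K) := by positivity
    constructor <;> nlinarith
  · have h2 : d ^ N * p ^ K = v ^ (2 * K) * d := by
      rw [h1, pow_succ, mul_right_comm, ← mul_pow, ← hdp, ← pow_mul]
    have h3 : v ^ (N + K) = v ^ (2 * K) * v := by
      rw [h1, ← pow_succ]; congr 1; ring
    rw [h2, h3]
    have h4 : 0 < v ^ (2 * K) := by positivity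
    constructor
    · have : d ≤ M * v := by nlinarith
      calc v ^ (2 * K) * d ≤ v ^ (2 * K) * (M * v) := mul_le_mul_of_nonneg_left this h4.le
        _ = _ := by ring
    · have : v ≤ 2 * M * d := by nlinarith
      calc v ^ (2 * K) * v ≤ v ^ (2 * K) * (2 * M * d) := mul_le_mul_of_nonneg_left this h4.le
        _ = _ := by ring
  · have h2 : d ^ N * p ^ K = v ^ (2 * N) * p := by
      rw [h1, pow_succ, ← mul_assoc, ← mul_pow, ← hdp, ← pow_mul]
    have h3 : v ^ (N + K) = v ^ (2 * N) * v := by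
      rw [h1, ← pow_succ]; congr 1; ring
    rw [h2, h3]
    have h4 : 0 < v ^ (2 * N) := by positivity
    constructor
    · have : p ≤ M * v := by nlinarith
      calc v ^ (2 * N) * p ≤ v ^ (2 * N) * (M * v) := mul_le_mul_of_nonneg_left this h4.le
        _ = _ := by ring
    · have : v ≤ 2 * M * p := by nlinarith
      calc v ^ (2 * N) * v ≤ v ^ (2 * N) * (2 * M * p) := mul_le_mul_of_nonneg_left this h4.le
        _ = _ := by ring

theorem trig_d {θ x : ℝ} (h0 : 0 < θ) (h1 : θ ≤ Real.pi / 3) (hx0 : 0 ≤ x) (hx1 : x ≤ θ) :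
    1 ≤ Real.sin (θ + x) / Real.sin θ := by
  have hpi := Real.pi_pos
  have hs : 0 < Real.sin θ := Real.sin_pos_of_pos_of_lt_pi h0 (by linarith)
  rw [le_div_iff₀ hs, one_mul, ← sub_nonneg, Real.sin_sub_sin]
  have h2 : 0 ≤ Real.sin ((θ + x - θ) / 2) :=
    Real.sin_nonneg_of_nonneg_of_le_pi (by linarith) (by linarith)
  have h3 : 0 ≤ Real.cos ((θ + x + θ) / 2) :=
    Real.cos_nonneg_of_mem_Icc ⟨by linarith, by linarith⟩
  positivity

theorem trig_p {θ x : ℝ} (h0 : 0 < θ) (h1 : θ ≤ Real.pi / 3) (hx0 : 0 ≤ x) (hx1 : x ≤ θ) :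
    1 / 2 ≤ Real.sin (2 * θ - x) / Real.sin (2 * θ) := by
  have hpi := Real.pi_pos
  have hs : 0 < Real.sin θ := Real.sin_pos_of_pos_of_lt_pi h0 (by linarith)
  have hs2 : 0 < Real.sin (2 * θ) := Real.sin_pos_of_pos_of_lt_pi (by linarith) (by linarith)
  have h2 : Real.sin θ ≤ Real.sin (2 * θ - x) := by
    rw [← sub_nonneg, Real.sin_sub_sin]
    have h2 : 0 ≤ Real.sin ((2 * θ - x - θ) / 2) :=
      Real.sin_nonneg_of_nonneg_of_le_pi (by linarith) (by linarith)
    have h3 : 0 ≤ Real.cos ((2 * θ - x + θ) / 2) :=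
      Real.cos_nonneg_of_mem_Icc ⟨by linarith, by linarith⟩
    positivity
  rw [le_div_iff₀ hs2, Real.sin_two_mul]
  have := Real.cos_le_one θ
  nlinarith

theorem trig_dp (θ x : ℝ) : Real.sin (θ + x) * Real.sin (2 * θ - x) =
    Real.sin θ * Real.sin (2 * θ) + Real.sin x * Real.sin (θ - x) := by
  have e1 : 2 * θ - x = θ + (θ - x) := by ring
  have e2 : 2 * θ = θ + θ := by ring
  rw [e1, e2, Real.sin_add θ x, Real.sin_add θ (θ - x), Real.sin_add θ θ, Real.sin_sub, Real.cos_sub]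
  have h1 := Real.sin_sq_add_cos_sq θ
  have h2 := Real.sin_sq_add_cos_sq x
  linear_combination (Real.sin θ * Real.cos θ * Real.sin θ * 2) * h2 +
    (Real.sin x * Real.cos x * Real.sin θ - Real.sin x ^ 2 * Real.cos θ) * h1

theorem trig_dp_ge {θ x : ℝ} (h0 : 0 < θ) (h1 : θ ≤ Real.pi / 3) (hx0 : 0 ≤ x) (hx1 : x ≤ θ) :
    1 ≤ Real.sin (θ + x) / Real.sin θ * (Real.sin (2 * θ - x) / Real.sin (2 * θ)) := by
  have hpi := Real.pi_pos
  have hs : 0 < Real.sin θ := Real.sin_pos_of_pos_of_lt_pi h0 (by linarith)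
  have hs2 : 0 < Real.sin (2 * θ) := Real.sin_pos_of_pos_of_lt_pi (by linarith) (by linarith)
  rw [div_mul_div_comm, trig_dp, le_div_iff₀ (by positivity), one_mul]
  have h2 : 0 ≤ Real.sin x := Real.sin_nonneg_of_nonneg_of_le_pi hx0 (by linarith)
  have h3 : 0 ≤ Real.sin (θ - x) := Real.sin_nonneg_of_nonneg_of_le_pi (by linarith) (by linarith)
  have := mul_nonneg h2 h3
  linarith

/-- A set of strands around `q l`, closed under outer strands. -/
structure Up (q : ZMod n → ℤ × ℤ) (D : Finset (ℤ × ℤ)) (ω : Cfg) (l : ℕ) (P : Finset Ed → Prop) :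
    Prop where
  ard : ∀ A ∈ pcs ω D, P A → Ard q l A
  up : ∀ A ∈ pcs ω D, P A → ∀ B ∈ pcs ω D, Ard q l B → lo q B ≤ lo q A → P B

theorem Up.or (h : Up q D ω l P) (h' : Up q D ω l P') : Up q D ω l (fun A => P A ∨ P' A) where
  ard A hA hP := hP.elim (h.ard A hA) (h'.ard A hA)
  up A hA hP B hB h1 h2 := hP.elim (fun h3 => Or.inl (h.up A hA h3 B hB h1 h2))
    fun h3 => Or.inr (h'.up A hA h3 B hB h1 h2)

theorem Up.and (h : Up q D ω l P) (h' : Up q D ω l P') : Up q D ω l (fun A => P A ∧ P' A) where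
  ard A hA hP := h.ard A hA hP.1
  up A hA hP B hB h1 h2 := ⟨h.up A hA hP.1 B hB h1 h2, h'.up A hA hP.2 B hB h1 h2⟩

theorem up_ard : Up q D ω l (Ard q l) := ⟨fun _ _ h => h, fun _ _ _ _ _ h _ => h⟩

theorem up_false : Up q D ω l (fun _ => False) := ⟨fun _ _ h => h.elim, fun _ _ h => h.elim⟩

section

variable (hq : IsPolygon q) (hD : Encloses q D)
include hq hD

/-- Two strands around `q l` are nested. -/
theorem nest (hA : A ∈ pcs ω D) (hB : B ∈ pcs ω D) (hAl : Ard q l A) (hBl : Ard q l B)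
    (h : lo q B < lo q A) : hi q A < hi q B := by
  have h1 : ¬ IsLp D A := fun h => ard_lp hq hD hA h hAl
  have h2 : ¬ IsLp D B := fun h => ard_lp hq hD hB h hBl
  have hne : B ≠ A := by rintro rfl; exact absurd h (lt_irrefl _)
  obtain ⟨n0, n1, n2, n3, n4, n5⟩ := non_cross hq hD hB hA h2 h1 hne
  unfold Ard at hAl hBl
  omega

theorem eq_of_lo (hA : A ∈ pcs ω D) (hB : B ∈ pcs ω D) (hAl : Ard q l A) (hBl : Ard q l B)
    (h : lo q B = lo q A) : A = B := by
  by_contra hne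
  have h1 : ¬ IsLp D A := fun h => ard_lp hq hD hA h hAl
  have h2 : ¬ IsLp D B := fun h => ard_lp hq hD hB h hBl
  exact (non_cross hq hD hA hB h1 h2 hne).2.1 h.symm

/-- **A set which is closed under outer strands consists of the strands around a site.** -/
theorem up_pos (h : Up q D ω l P) : ∃ w ≤ l, ∀ A ∈ pcs ω D, (P A ↔ Ard q w A) := by
  classical
  rcases ((pcs ω D).filter P).eq_empty_or_nonempty with h0 | h0
  · refine ⟨0, Nat.zero_le _, fun A hA => ⟨fun h1 => ?_, fun h1 => absurd h1.1 (Nat.not_lt_zero _)⟩⟩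
    have : A ∈ (pcs ω D).filter P := mem_filter.2 ⟨hA, h1⟩
    rw [h0] at this
    exact absurd this (notMem_empty _)
  obtain ⟨C, hC, hmax⟩ := exists_max_image _ (fun A => lo q A) h0
  rw [mem_filter] at hC
  have hCl := h.ard C hC.1 hC.2
  refine ⟨lo q C + 1, hCl.1, fun A hA => ⟨fun h1 => ?_, fun h1 => ?_⟩⟩
  · have h2 := hmax A (mem_filter.2 ⟨hA, h1⟩)
    have h3 := h.ard A hA h1
    unfold Ard at *
    omega
  · -- `A` is outside of `C`
    by_cases hAC : A = C
    · rw [hAC]; exact hC.2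
    have h2 : ¬ IsLp D A := fun h => ard_lp hq hD hA h h1
    have h3 : ¬ IsLp D C := fun h => ard_lp hq hD hC.1 h hCl
    obtain ⟨n0, n1, n2, n3, n4, n5⟩ := non_cross hq hD hA hC.1 h2 h3 hAC
    refine h.up C hC.1 hC.2 A hA ?_ ?_
    · unfold Ard at *
      omega
    · unfold Ard at h1
      omega

open Classical in
/-- **The signs of a block.** -/
theorem blk_sum (hl : l ≤ n) (h : Up q D ω l P) (h' : Up q D ω l P') :
    |∑ A ∈ (pcs ω D).filter (fun A => P A ∧ ¬ P' A), QB.sg q A| ≤ 1 := by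
  obtain ⟨w, hw, h1⟩ := up_pos hq hD h
  obtain ⟨w', hw', h2⟩ := up_pos hq hD (h.and h')
  have e1 : ∑ A ∈ (pcs ω D).filter (fun A => P A ∧ ¬ P' A), QB.sg q A = sgm q w - sgm q w' := by
    rw [← sum_alt hq hD ω (w := w) (by omega), ← sum_alt hq hD ω (w := w') (by omega)]
    have e2 : (pcs ω D).filter (Ard q w) = (pcs ω D).filter (fun A => P A ∧ ¬ P' A) ∪
        (pcs ω D).filter (Ard q w') := by
      ext B
      simp only [mem_filter, mem_union]
      constructor
      · rintro ⟨hB, h3⟩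
        by_cases h4 : P' B
        · exact Or.inr ⟨hB, (h2 B hB).1 ⟨(h1 B hB).2 h3, h4⟩⟩
        · exact Or.inl ⟨hB, (h1 B hB).2 h3, h4⟩
      · rintro (⟨hB, h3, -⟩ | ⟨hB, h3⟩)
        · exact ⟨hB, (h1 B hB).1 h3⟩
        · exact ⟨hB, (h1 B hB).1 ((h2 B hB).2 h3).1⟩
    have e3 : Disjoint ((pcs ω D).filter (fun A => P A ∧ ¬ P' A)) ((pcs ω D).filter (Ard q w')) := by
      rw [disjoint_left]
      intro B hB hB'
      rw [mem_filter] at hB hB'
      exact hB.2.2 ((h2 B hB.1).2 hB'.2).2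
    rw [e2, sum_union e3]
    ring
  rw [e1]
  exact sgm_sub_bd hq w w'

/-! ### weights -/

/-- The weight of a strand with both ends on the free side. -/
theorem wB_free (hA : A ∈ pcs ω D) (hl : ¬ IsLp D A) (hk : hi q A < k) (t : ℝ) :
    wB θ (gB θ) q D k A t = if QB.sg q A = 1 then Real.sin (θ - t) / Real.sin θ
      else Real.sin (2 * θ + t) / Real.sin (2 * θ) := by
  obtain ⟨x, y, h⟩ := exists_xy hq hD hA hl
  have hne := h.ne
  have hsg := sg_xy hq hD hA h
  rw [hi_xy hq hD hA h] at hk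
  have hcl := isCl_strand (k := k) hq hD hA hl h
  unfold wB
  rw [if_neg hl, if_neg (fun h' => by rw [hi_xy hq hD hA h] at h'; omega), hsg]
  rcases lt_or_gt_of_ne hne with h1 | h1
  · rw [if_neg (fun h' => by have := hcl.1 h'; unfold Cl at this; omega), if_pos h1, if_pos rfl]
  · rw [if_pos (hcl.2 (Or.inl ⟨by omega, by omega, h1⟩)), if_neg (by omega : ¬ x < y), if_neg (by norm_num)]

open Classical in
/-- **The weights of a block with the mass `- x`, `0 ≤ x ≤ θ`: lower bound.** -/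
theorem blk_ge (h0 : 0 < θ) (h1 : θ ≤ Real.pi / 3) (hl : l ≤ n) (h : Up q D ω l P)
    (h' : Up q D ω l P') (hk : ∀ A ∈ pcs ω D, P A → ¬ P' A → hi q A < k) {x : ℝ} (hx0 : 0 ≤ x)
    (hx1 : x ≤ θ) :
    1 / 2 ≤ ∏ A ∈ (pcs ω D).filter (fun A => P A ∧ ¬ P' A), wB θ (gB θ) q D k A (-x) := by
  have e : ∏ A ∈ (pcs ω D).filter (fun A => P A ∧ ¬ P' A), wB θ (gB θ) q D k A (-x) =
      ∏ A ∈ (pcs ω D).filter (fun A => P A ∧ ¬ P' A), if QB.sg q A = 1 then
        Real.sin (θ + x) / Real.sin θ else Real.sin (2 * θ - x) / Real.sin (2 * θ) := by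
    refine prod_congr rfl fun A hA => ?_
    rw [mem_filter] at hA
    have hl' : ¬ IsLp D A := fun h3 => ard_lp hq hD hA.1 h3 (h.ard A hA.1 hA.2.1)
    rw [wB_free hq hD hA.1 hl' (hk A hA.1 hA.2.1 hA.2.2), sub_neg_eq_add, ← sub_eq_add_neg]
  rw [e]
  exact two_ge _ _ (fun A _ => sg_cases A) (blk_sum hq hD hl h h') (trig_d h0 h1 hx0 hx1)
    (trig_p h0 h1 hx0 hx1) (trig_dp_ge h0 h1 hx0 hx1)

/-- The weight of a pair of strands with the mass `- x`. -/
noncomputable def dpx (θ x : ℝ) : ℝ :=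
  Real.sin (θ + x) / Real.sin θ * (Real.sin (2 * θ - x) / Real.sin (2 * θ))

open Classical in
omit hq hD in
/-- **The weights of a block with the mass `- x`, `0 ≤ x ≤ θ`: comparison.** -/
theorem blk_cmp (hq : IsPolygon q) (hD : Encloses q D) (h0 : 0 < θ) (h1 : θ ≤ Real.pi / 3)
    (hl : l ≤ n) (h : Up q D ω l P) (h' : Up q D ω l P')
    (hk : ∀ A ∈ pcs ω D, P A → ¬ P' A → hi q A < k) {x M : ℝ} (hx0 : 0 ≤ x)
    (hx1 : x ≤ θ) (hM1 : 1 / Real.sin θ ≤ M) (hM2 : 1 / Real.sin (2 * θ) ≤ M)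
    (hM3 : Real.sqrt (dpx θ x) ≤ M) :
    ∏ A ∈ (pcs ω D).filter (fun A => P A ∧ ¬ P' A), wB θ (gB θ) q D k A (-x) ≤
      M * ∏ _A ∈ (pcs ω D).filter (fun A => P A ∧ ¬ P' A), Real.sqrt (dpx θ x) ∧
    ∏ _A ∈ (pcs ω D).filter (fun A => P A ∧ ¬ P' A), Real.sqrt (dpx θ x) ≤
      2 * M * ∏ A ∈ (pcs ω D).filter (fun A => P A ∧ ¬ P' A), wB θ (gB θ) q D k A (-x) := by
  have hpi := Real.pi_pos
  have hs : 0 < Real.sin θ := Real.sin_pos_of_pos_of_lt_pi h0 (by linarith)
  have hs2 : 0 < Real.sin (2 * θ) := Real.sin_pos_of_pos_of_lt_pi (by linarith) (by linarith)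
  have e : ∏ A ∈ (pcs ω D).filter (fun A => P A ∧ ¬ P' A), wB θ (gB θ) q D k A (-x) =
      ∏ A ∈ (pcs ω D).filter (fun A => P A ∧ ¬ P' A), if QB.sg q A = 1 then
        Real.sin (θ + x) / Real.sin θ else Real.sin (2 * θ - x) / Real.sin (2 * θ) := by
    refine prod_congr rfl fun A hA => ?_
    rw [mem_filter] at hA
    have hl' : ¬ IsLp D A := fun h3 => ard_lp hq hD hA.1 h3 (h.ard A hA.1 hA.2.1)
    rw [wB_free hq hD hA.1 hl' (hk A hA.1 hA.2.1 hA.2.2), sub_neg_eq_add, ← sub_eq_add_neg]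
  rw [e]
  have h3 := trig_dp_ge h0 h1 hx0 hx1
  have h4 : 1 ≤ dpx θ x := h3
  refine two_cmp _ _ (fun A _ => sg_cases A) (blk_sum hq hD hl h h') (trig_d h0 h1 hx0 hx1)
    (trig_p h0 h1 hx0 hx1) (Real.one_le_sqrt.2 h4) (Real.sq_sqrt (by linarith)) ?_ ?_ hM3
  · exact (div_le_div_of_nonneg_right (Real.sin_le_one _) hs.le).trans hM1
  · exact (div_le_div_of_nonneg_right (Real.sin_le_one _) hs2.le).trans hM2

open Classical in
/-- **The weights of a block with the mass `- θ`: upper bound.** -/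
theorem blk_le (h0 : 0 < θ) (h1 : θ ≤ Real.pi / 3) (hl : l ≤ n) (h : Up q D ω l P)
    (h' : Up q D ω l P') (hk : ∀ A ∈ pcs ω D, P A → ¬ P' A → hi q A < k) :
    ∏ A ∈ (pcs ω D).filter (fun A => P A ∧ ¬ P' A), wB θ (gB θ) q D k A (-θ) ≤ 2 := by
  have hpi := Real.pi_pos
  have hs : 0 < Real.sin θ := Real.sin_pos_of_pos_of_lt_pi h0 (by linarith)
  have hc : 0 < Real.cos θ := Real.cos_pos_of_mem_Ioo ⟨by linarith, by linarith⟩
  have e : ∏ A ∈ (pcs ω D).filter (fun A => P A ∧ ¬ P' A), wB θ (gB θ) q D k A (-θ) =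
      ∏ A ∈ (pcs ω D).filter (fun A => P A ∧ ¬ P' A), if QB.sg q A = 1 then
        2 * Real.cos θ else 1 / (2 * Real.cos θ) := by
    refine prod_congr rfl fun A hA => ?_
    rw [mem_filter] at hA
    have hl' : ¬ IsLp D A := fun h3 => ard_lp hq hD hA.1 h3 (h.ard A hA.1 hA.2.1)
    rw [wB_free hq hD hA.1 hl' (hk A hA.1 hA.2.1 hA.2.2), sub_neg_eq_add, ← two_mul,
      Real.sin_two_mul, two_mul θ, add_neg_cancel_right]
    congr 1 <;> field_simp
  rw [e]
  have h2 : 1 ≤ 2 * Real.cos θ := by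
    have h := Real.cos_le_cos_of_nonneg_of_le_pi h0.le (by linarith) h1
    rw [Real.cos_pi_div_three] at h
    linarith
  have h3 := Real.cos_le_one θ
  exact two_le _ _ (fun A _ => sg_cases A) (blk_sum hq hD hl h h') h2 (by linarith)
    (by field_simp)

/-! ### zones -/

/-- A piece which visits the zone is outside of a strand which does not surround the zone. -/
theorem vis_outer (hZD : Z ⊆ D) (hZ : ECon Z) (hm : m ≤ n) (hqm : q m ∈ sites Z)
    (hA : A ∈ pcs ω D) (hB : B ∈ pcs ω D) (hAm : ¬ Ard q m A) (hAV : ¬ Vz Z A) (hBV : Vz Z B)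
    (hAl : ¬ IsLp D A) (hBl : ¬ IsLp D B) : ¬ (lo q A < lo q B ∧ hi q B < hi q A) := by
  intro hin
  obtain ⟨x, y, h⟩ := exists_xy hq hD hB hBl
  obtain ⟨u, hu⟩ := exists_pot hq hD hA
  obtain ⟨e, he, heZ⟩ := hBV
  have h1 : u (ls e) = u (q m) := pot_zone hu hZD hAV (hZ _ (ls_mem_sites heZ) _ hqm)
  have h3 := side_const hA hu hB he h.2.2.1
  rw [(be_even hq hD h.2.2.2.2.1).1, h1] at h3
  -- the end `x` is surrounded by `A`
  have hx : x ≤ n := h.1.le
  obtain ⟨x', y', h'⟩ := exists_xy hq hD hA hAl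
  have e1 := H718.pot_lft hq hD hA hu h' hx
  have e2 := H718.pot_lft hq hD hA hu h' hm
  have hAx : Ard q x A := by
    rw [lo_xy hq hD hB h, hi_xy hq hD hB h] at hin
    unfold Ard
    omega
  obtain ⟨u', hu', h6⟩ := (sep_ard hq hD hA hx).2 hAx
  have h0 := H718.pot_lft hq hD hA hu' h' hx
  have h00 := H718.pot_lft hq hD hA hu' h' (Nat.zero_le n)
  have hmm := H718.pot_lft hq hD hA hu' h' hm
  rw [Nat.cast_zero] at h00
  apply hAm
  rw [← sep_ard hq hD hA hm]
  refine ⟨u', hu', ?_⟩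
  have e5 : u' (q m) = u' (q x) := by rw [h0, hmm]; rw [e1, e2] at h3; omega
  rw [e5]
  exact h6

/-- The strands around `q l` which surround the zone and do not visit it. -/
theorem up_U (hZD : Z ⊆ D) (hZ : ECon Z) (hm : m ≤ l) (hl : l ≤ n) (hqm : q m ∈ sites Z) :
    Up q D ω l (fun A => Ard q l A ∧ Ard q m A ∧ ¬ Vz Z A) where
  ard A _ h := h.1
  up A hA h B hB hBl hlo := by
    refine ⟨hBl, ?_, fun hV => ?_⟩
    · obtain ⟨h1, h2, -⟩ := h
      unfold Ard at *
      omega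
    · have h1 : ¬ IsLp D B := fun h => ard_lp hq hD hB h hBl
      have := vis_inner hq hD hZD hZ (hm.trans hl) hqm hA hB h.2.1 h.2.2 hV h1
      omega

/-- The strands around `q l` which surround or visit the zone. -/
theorem up_V (hZD : Z ⊆ D) (hZ : ECon Z) (hm : m ≤ l) (hl : l ≤ n) (hqm : q m ∈ sites Z) :
    Up q D ω l (fun A => Ard q l A ∧ (Ard q m A ∨ Vz Z A)) where
  ard A _ h := h.1
  up A hA h B hB hBl hlo := by
    refine ⟨hBl, ?_⟩
    by_contra hcon
    push Not at hcon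
    have hne : A ≠ B := by
      rintro rfl
      exact h.2.elim hcon.1 hcon.2
    have hlt : lo q B < lo q A := by
      rcases hlo.lt_or_eq with h1 | h1
      · exact h1
      · exact absurd (eq_of_lo hq hD hA hB h.1 hBl h1) hne
    have hhi := nest hq hD hA hB h.1 hBl hlt
    have h1 : ¬ IsLp D B := fun h => ard_lp hq hD hB h hBl
    have h2 : ¬ IsLp D A := fun h' => ard_lp hq hD hA h' h.1
    rcases h.2 with h3 | h3
    · apply hcon.1
      unfold Ard at *
      omega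
    · exact vis_outer hq hD hZD hZ (hm.trans hl) hqm hB hA hcon.1 hcon.2 h3 h1 h2 ⟨hlt, hhi⟩

end

end Vale.Agent.P167.H208.ND
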