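import Vale.Agent.P167.H208.ND.Rgs
import Vale.Agent.P167.H192.ND.Cross

/-!
# P167, general `q`, block Q-ND: masses of the pieces
-/

namespace Vale.Agent.P167.H208.ND

open Finset Relation Vale.Agent.P167.BR Vale.Agent.P167
open Vale.Agent.P167.E6 (IsPolygon Encloses)
open Vale.Agent.P167.QX (lo hi exists_xy lo_xy hi_xy wB)
open Vale.Agent.P167.QB (gB Ard sgm ep sum_alt sg_cases sg_xy ard_lp non_cross vis_inner sep_ard
  sgm_sub_bd wB_hx flat_side inn_xy dlt mass_dlt XG)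
open Vale.Agent.P167.H436.ND
open Vale.Agent.P167.H192.TA (Xc)
open Vale.Agent.P167.H640.ND (mem_Zg mem_sites_Zg econ_Zg zone_sub sep_zn stay Zr_eq)

variable {D : Finset (ℤ × ℤ)} {ω : Cfg} {n m : ℕ} {q : ZMod n → ℤ × ℤ} {A B : Finset Ed}
  {l k : ℕ} {θ : ℝ} {R : ℤ} {a : Fin m → ℤ} {τ : Fin m → ℝ} {e : ℝ} {f : Fin m → ℤ × ℤ → ℝ}

/-- The partial sums of the charges. -/
noncomputable def Sj (τ : Fin m → ℝ) (e : ℝ) (j : ℕ) : ℝ := e + ∑ i : Fin m, if (i : ℕ) < j then τ i else 0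

theorem mass_lin (τ : Fin m → ℝ) (f : Fin m → ℤ × ℤ → ℝ) (E : ℤ × ℤ → ℝ) (p : ℤ × ℤ)
    (A : Finset Ed) : mass D p (Ft τ f E) A = ∑ i, τ i * mass D p (f i) A + mass D p E A := by
  classical
  have e1 : Ft τ f E = Ft (fun _ => 1) (fun i z => τ i * f i z) E := by
    funext z
    simp [Ft]
  rw [e1, H542.Q.PW.mass_Ft]
  congr 1
  refine sum_congr rfl fun i _ => ?_
  unfold mass
  rw [mul_sum]
  refine sum_congr rfl fun z _ => ?_
  rw [mul_ite, mul_zero]

theorem kr_sites {b : ℤ × ℤ} {a : ℤ} (ha : 1 ≤ a) {z : ℤ × ℤ} (hz : z ∈ Kr b a) :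
    z ∈ sites (Zr b a) := by
  simp only [Kr, Set.mem_ofPred_eq] at hz
  rw [Zr_eq, mem_sites_Zg (by omega) (by omega)]
  omega

section

variable (hw : Win q D l R) (ha : Scl 4000 4 R a)
include hw ha

theorem ql_mem : q l ∈ sites D := by
  rcases Nat.eq_zero_or_pos m with h | h
  · have := be_mem hw.poly hw.enc (l : ZMod n)
    rcases be_sides hw.poly (l : ZMod n) with ⟨h1, -⟩ | ⟨h1, -⟩
    · rw [← h1]; exact ls_mem_sites this
    · rw [← h1]; exact rs_mem_sites this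
  · obtain ⟨h1, h2, h3, h4⟩ := range_i hw ha ⟨0, h⟩
    refine sites_mono (hbox_sub hw.flat) ?_
    rw [mem_sites_hbox (by omega)]
    omega

/-- The mass of a bump for a piece which does not visit the ring. -/
theorem mass_ring (hk : (l : ℤ) + R ≤ k) (hkn : k ≤ n) (i : Fin m)
    (hfs : ∀ z, f i z ≠ 0 → z ∈ Kr (q l) (a i)) (hf1 : ∑ᶠ z, f i z = 1) (hA : A ∈ pcs ω D)
    (hV : ¬ Vz (Zr (q l) (a i)) A) :
    mass D (q 0) (f i) A = (open Classical in if Ard q (sL l a i) A then 1 else 0) := by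
  have h1 := range_i hw ha i
  rw [mass_i hw.poly hw.enc (zn_ring hw ha hk hkn) i hA hV
    (fun z hz => kr_sites (by omega) (hfs z hz)), hf1]

/-- The mass of a piece which avoids the rings. -/
theorem mass_av (hk : (l : ℤ) + R ≤ k) (hkn : k ≤ n)
    (hfs : ∀ i z, f i z ≠ 0 → z ∈ Kr (q l) (a i)) (hf1 : ∀ i, ∑ᶠ z, f i z = 1)
    (hA : A ∈ pcs ω D) (hV : ∀ i, ¬ Vz (Zr (q l) (a i)) A) :
    mass D (q 0) (Ft τ f (dlt (q l) e)) A =
      (open Classical in if Ard q l A then Sj τ e (cls q (sL l a) A) else 0) := by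
  classical
  have hZ := zn_ring hw ha hk hkn
  rw [mass_lin, mass_dlt hw.poly hw.enc hw.l1.le hA (ql_mem hw ha)]
  have h1 : ∀ i, mass D (q 0) (f i) A = if Ard q (sL l a i) A then 1 else 0 := fun i => by
    rw [mass_ring hw ha hk hkn i (hfs i) (hf1 i) hA (hV i)]
  by_cases hl : Ard q l A
  · rw [if_pos hl, if_pos hl, Sj, add_comm]
    congr 1
    refine sum_congr rfl fun i _ => ?_
    rw [h1 i]
    have h2 := cls_iff hZ.sl hZ.anti hl i
    by_cases h3 : Ard q (sL l a i) A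
    · rw [if_pos h3, if_pos (h2.1 h3), mul_one]
    · rw [if_neg h3, if_neg (fun h => h3 (h2.2 h)), mul_zero]
  · rw [if_neg hl, if_neg hl, add_zero]
    refine sum_eq_zero fun i _ => ?_
    rw [h1 i, if_neg (fun h => hl (ard_l hw.poly hw.enc hZ i hA (hV i) h)), mul_zero]

/-- The mass of a bump is between `0` and `1`. -/
theorem mass_01 (i : Fin m) (hf0 : ∀ z, 0 ≤ f i z) (hfs : ∀ z, f i z ≠ 0 → z ∈ Kr (q l) (a i))
    (hf1 : ∑ᶠ z, f i z = 1) (A : Finset Ed) :
    0 ≤ mass D (q 0) (f i) A ∧ mass D (q 0) (f i) A ≤ 1 := by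
  classical
  have h1 := range_i hw ha i
  have hsub : Zr (q l) (a i) ⊆ D := zone_sub hw.flat (by omega)
  have hs : Function.support (f i) ⊆ (sites D : Set (ℤ × ℤ)) := fun z hz =>
    sites_mono hsub (kr_sites (by omega) (hfs z hz))
  rw [← hf1, finsum_eq_sum_of_support_subset (f i) hs]
  unfold mass
  constructor
  · refine sum_nonneg fun z _ => ?_
    split_ifs
    · exact hf0 z
    · exact le_rfl
  · refine sum_le_sum fun z _ => ?_
    split_ifs
    · exact le_rfl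
    · exact hf0 z

omit hw ha in
/-- An edge does not touch two distant sets. -/
theorem eds_far {r s s' : ℤ} {b : ℤ × ℤ} (h : s + 2 ≤ r) {d : Ed} (h1 : d ∈ eds (hbox b s))
    (h2 : d ∈ eds (Zg b r s')) : False := by
  rw [mem_eds, mem_hbox, mem_hbox] at h1
  rw [mem_eds, mem_Zg, mem_Zg] at h2
  have h3 := adj_sq d
  omega

/-- Rings inside of a visited ring. -/
theorem ard_in {i i0 : Fin m} (hi : i < i0) (hA : A ∈ pcs ω D)
    (hV : ¬ Vz (Zr (q l) (a i)) A) (hV0 : Vz (Zr (q l) (a i0)) A) (hl : Ard q l A) :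
    Ard q (sL l a i) A := by
  obtain ⟨h1, h2, h3, h4⟩ := range_i hw ha i
  have hm := a_mono hw ha hi
  have hs := sL_eq hw ha i
  have hlp : ¬ IsLp D A := fun h => ard_lp hw.poly hw.enc hA h hl
  -- the piece does not visit the half box
  have hnb : ¬ Vz (hbox (q l) (a i)) A := by
    intro hb
    have h5 := stay hw.flat (by omega) (by omega) (by omega) hA hV hb
    obtain ⟨d, hd, hd2⟩ := hV0
    exact eds_far (by omega) (h5 d hd).1 hd2
  obtain ⟨x, y, h⟩ := exists_xy hw.poly hw.enc hA hlp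
  have key : ∀ w : ℕ, be q (w : ZMod n) ∈ A → ¬ ((l : ℤ) - a i ≤ w ∧ (w : ℤ) < l + a i) := by
    intro w hwA hcon
    apply hnb
    obtain ⟨h5, h6⟩ := flat_side hw.poly hw.enc hw.flat (by omega) hw.l1 hw.off (i := w) (by omega)
      (by omega)
    refine ⟨_, hwA, ?_⟩
    rw [h6, ce_mem_eds, E2.face0, mem_hbox, h5]
    left
    simp only
    omega
  have kx := key x h.2.2.1
  have ky := key y h.2.2.2.1
  have hlo := lo_xy hw.poly hw.enc hA h
  have hhi := hi_xy hw.poly hw.enc hA h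
  have h5 := hl.1
  have h6 := hl.2
  refine ⟨?_, ?_⟩
  · rcases le_total x y with h7 | h7
    · rw [min_eq_left h7] at hlo
      rw [max_eq_right h7] at hhi
      omega
    · rw [min_eq_right h7] at hlo
      rw [max_eq_left h7] at hhi
      omega
  · omega

/-- Rings outside of a visited ring. -/
theorem ard_out {i i0 : Fin m} (hii : i0 < i) (hA : A ∈ pcs ω D)
    (hV : ¬ Vz (Zr (q l) (a i)) A) (hV0 : Vz (Zr (q l) (a i0)) A) :
    ¬ Ard q (sL l a i) A ∧ (¬ IsLp D A → (hi q A : ℤ) < l + a i) := by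
  obtain ⟨h1, h2, h3, h4⟩ := range_i hw ha i
  obtain ⟨h1', h2', h3', h4'⟩ := range_i hw ha i0
  have hm := a_mono hw ha hii
  have hs := sL_eq hw ha i
  by_cases hlp : IsLp D A
  · exact ⟨ard_lp hw.poly hw.enc hA hlp, fun h => absurd hlp h⟩
  have hb : Vz (hbox (q l) (a i)) A := by
    obtain ⟨d, hd, hd2⟩ := hV0
    refine ⟨d, hd, eds_mono ?_ hd2⟩
    intro v hv
    have hv' : v ∈ Zg (q l) (a i0) (2 * a i0) := hv
    rw [mem_Zg] at hv'
    rw [mem_hbox]
    omega
  have h5 := stay hw.flat (by omega) (by omega) (by omega) hA hV hb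
  obtain ⟨x, y, h, k1, k2, k3, k4, -⟩ := inn_xy hw.poly hw.enc
    (hw.flat.mono (by omega : a i ≤ R)) (by omega) hw.l1
    (fun h' => hw.off (sites_mono (hbox_mono (by omega)) h')) hA (fun d hd => (h5 d hd).1)
    (fun d hd => (h5 d hd).2) hlp
  have hlo := lo_xy hw.poly hw.enc hA h
  have hhi := hi_xy hw.poly hw.enc hA h
  rcases le_total x y with h7 | h7
  · rw [min_eq_left h7] at hlo
    rw [max_eq_right h7] at hhi
    refine ⟨fun h8 => ?_, fun _ => by omega⟩
    have := h8.1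
    omega
  · rw [min_eq_right h7] at hlo
    rw [max_eq_left h7] at hhi
    refine ⟨fun h8 => ?_, fun _ => by omega⟩
    have := h8.1
    omega

/-- **The mass of a piece which visits exactly one ring.** -/
theorem mass_vis (hk : (l : ℤ) + R ≤ k) (hkn : k ≤ n)
    (hfs : ∀ i z, f i z ≠ 0 → z ∈ Kr (q l) (a i)) (hf1 : ∀ i, ∑ᶠ z, f i z = 1)
    (hA : A ∈ pcs ω D) (i0 : Fin m) (hV0 : Vz (Zr (q l) (a i0)) A)
    (hV : ∀ i, i ≠ i0 → ¬ Vz (Zr (q l) (a i)) A) :
    mass D (q 0) (Ft τ f (dlt (q l) e)) A = τ i0 * mass D (q 0) (f i0) A +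
      (open Classical in if Ard q l A then Sj τ e i0 else 0) := by
  classical
  have hZ := zn_ring hw ha hk hkn
  rw [mass_lin, mass_dlt hw.poly hw.enc hw.l1.le hA (ql_mem hw ha)]
  rw [← add_sum_erase univ _ (mem_univ i0), add_assoc]
  congr 1
  have h1 : ∀ i ∈ univ.erase i0, τ i * mass D (q 0) (f i) A =
      if Ard q (sL l a i) A then τ i else 0 := fun i hi => by
    rw [mass_ring hw ha hk hkn i (hfs i) (hf1 i) hA (hV i (mem_erase.1 hi).1)]
    split_ifs
    · rw [mul_one]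
    · rw [mul_zero]
  rw [sum_congr rfl h1]
  by_cases hl : Ard q l A
  · rw [if_pos hl, if_pos hl, Sj, add_comm, ← add_sum_erase univ _ (mem_univ i0),
      if_neg (lt_irrefl _), zero_add]
    congr 1
    refine sum_congr rfl fun i hi => ?_
    have hne := (mem_erase.1 hi).1
    rcases lt_or_gt_of_ne hne with h2 | h2
    · rw [if_pos (ard_in hw ha h2 hA (hV i hne) hV0 hl), if_pos (show (i : ℕ) < i0 from h2)]
    · rw [if_neg (ard_out hw ha h2 hA (hV i hne) hV0).1, if_neg (by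
        have : (i0 : ℕ) < i := h2
        omega)]
  · rw [if_neg hl, if_neg hl, add_zero]
    refine sum_eq_zero fun i hi => ?_
    rw [if_neg (fun h => hl (ard_l hw.poly hw.enc hZ i hA (hV i (mem_erase.1 hi).1) h))]

end

end Vale.Agent.P167.H208.ND
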