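import Vale.Agent.P167.H208.ND.Red
import Vale.Agent.P167.H436.ND.MRf

/-!
# P167, general `q`, block Q-ND: `S_fre` and `S_ptp`, closed form
-/

namespace Vale.Agent.P167.H208.ND

open MeasureTheory Vale.Agent.P167 Vale.Agent.P167.FK Vale.Agent.P167.H436.ND
open Vale.Agent.P167.H192.Q (SRSW)
open Vale.Agent.P167.H519 (IsLim)

variable {θ : ℝ} {P : Measure Cfg}

/-- **(FRE).** -/
theorem s_fre (h0 : 0 < θ) (h1 : θ ≤ Real.pi / 3) (hR : RSW (2 * Real.cos θ))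
    (hS : SRSW (2 * Real.cos θ)) (hP : IsLim (2 * Real.cos θ) P) : S_fre θ P :=
  fre_of_mr h0 h1 (s_mrF h0 h1 hR hS hP)

/-- **(PTP).** -/
theorem s_ptp (h0 : 0 < θ) (h1 : θ ≤ Real.pi / 3) (hR : RSW (2 * Real.cos θ))
    (hS : SRSW (2 * Real.cos θ)) (hP : IsLim (2 * Real.cos θ) P) : S_ptp θ P :=
  ptp_of_mr h0 h1 (s_mrF h0 h1 hR hS hP)

end Vale.Agent.P167.H208.ND
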