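import Vale.Agent.P167.H208.ND.Fin
import Vale.Agent.P167.H436.ND.Cut2
import Vale.Agent.P167.H135.ND.Cls3

/-!
# P167, general `q`, block Q-ND: reduction of `S_fre` and `S_ptp` to the general theorem `S_MR`
-/

namespace Vale.Agent.P167.H208.ND

open Finset MeasureTheory Vale.Agent.P167.BR Vale.Agent.P167 Vale.Agent.P167.FK
open Vale.Agent.P167.E6 (IsPolygon Encloses)
open Vale.Agent.P167.QB (Ard dlt XG)
open Vale.Agent.P167.H436.ND
open Vale.Agent.P167.H192.TA (Xc)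
open Vale.Agent.P167.H562.QM (MajA)
open Vale.Agent.P167.H640.ND (mem_sites_Zg)

variable {D : Finset (ℤ × ℤ)} {ω : Cfg} {n m : ℕ} {q : ZMod n → ℤ × ℤ} {A : Finset Ed}
  {l k : ℕ} {θ : ℝ} {R : ℤ} {a : Fin m → ℤ} {τ : Fin m → ℝ} {e M : ℝ} {f : Fin m → ℤ × ℤ → ℝ}
  {P : Measure Cfg} {η : Cfg}

theorem vz_iff {b : ℤ × ℤ} : Vz (UU b a 0) A ↔ ∃ i, Vz (Zr b (a i)) A := by
  rw [vz_UU]
  simp only [rh_zero, sg_zero]
  rfl

/-- The two forms of the product of the class weights. -/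
theorem vc_eq (hw : Win q D l R) (ha : Scl 4000 4 R a) (hk : (l : ℤ) + R ≤ k) (hkn : k ≤ n) :
    Vc θ q D l a τ e ω = H436.ND.Vc (vj θ τ e) q D (zf (q l) a) (UU (q l) a 0) ω := by
  classical
  unfold Vc H436.ND.Vc
  refine prod_congr ?_ fun A hA => ?_
  · refine filter_congr fun A _ => ?_
    rw [vz_iff, not_exists]
  · rw [mem_filter] at hA
    refine congrArg (vj θ τ e) ?_
    unfold cls clz
    refine congrArg Finset.card ?_
    refine filter_congr fun i _ => ?_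
    refine (sep_iff hw.poly hw.enc (zn_ring hw ha hk hkn) i hA.1
      (fun hv => hA.2 (vz_iff.2 ⟨i, hv⟩)) ?_).symm
    have h1 := range_i hw ha i
    show zf (q l) a i ∈ sites (Zg (q l) (a i) (2 * a i))
    rw [mem_sites_Zg (by omega) (by omega)]
    unfold zf
    simp only
    omega

theorem vj_fin (h0 : 0 < θ) (h1 : θ ≤ Real.pi / 3) (hC : Chg θ τ e) {j : ℕ} (hj : m ≤ j) :
    vj θ τ e j = 1 := by
  refine vj_zero h0 h1 (Or.inl ?_)
  rw [← hC.fin]
  unfold Sj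
  congr 1
  refine sum_congr rfl fun i _ => ?_
  have := i.2
  rw [if_pos (by omega), if_pos (by omega)]

/-- **The general reduction.** -/
theorem of_mr (h0 : 0 < θ) (h1 : θ ≤ Real.pi / 3) (h : S_MR θ P) (hm : 0 < m)
    (hC : Chg θ τ e) {Cm : ℝ} (hCm : 0 < Cm) :
    ∃ K0 : ℤ, 4 ≤ K0 ∧ ∀ K : ℤ, K0 ≤ K → ∃ (c C : ℝ) (a₀ : ℤ), 0 < c ∧
    ∀ (n : ℕ) (q : ZMod n → ℤ × ℤ) (D : Finset (ℤ × ℤ)) (k l : ℕ) (R : ℤ) (η : Cfg), Win q D l R →
    (l : ℤ) + R ≤ k → k ≤ n → FltO D η (q l) R false false →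
    ∀ a : Fin m → ℤ, Scl a₀ K R a → (∀ i, K * a i ≤ R) →
      (∀ i j : Fin m, (i : ℕ) + 1 = j → vj θ τ e j ≠ 1 → a j ≤ 2 * K * a i) →
    ∀ f : Fin m → ℤ × ℤ → ℝ, (∀ i, Bp Cm (q l) (a i) (f i)) →
      c ≤ Ex (2 * Real.cos θ) D η (XG θ q D k (Ft τ f (dlt (q l) e))) *
        Real.exp (Ex0 θ P τ a) ∧
      Ex (2 * Real.cos θ) D η (XG θ q D k (Ft τ f (dlt (q l) e))) *
        Real.exp (Ex0 θ P τ a) ≤ C := by
  classical
  obtain ⟨M, hM⟩ := exists_mc h0 h1
  have hM1 := hM.h1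
  have hpi := Real.pi_lt_d2
  obtain ⟨K0, hK0, hK⟩ := h m M M ((2 * M) ^ m) Cm hm hM1 hM1 (by positivity) hCm
  refine ⟨K0, hK0, fun K hKK => ?_⟩
  obtain ⟨c, C, a₀, hc, hh⟩ := hK K hKK
  refine ⟨c, C, max a₀ 4000, hc, ?_⟩
  intro n q D k l R η hw hk hkn hflt a ha haR hgr f hf
  have ha0 : Scl a₀ K R a := ⟨fun i => (le_max_left _ _).trans (ha.pos i), ha.step, ha.top⟩
  have ha' : Scl 4000 4 R a := by
    refine ⟨fun i => (le_max_right _ _).trans (ha.pos i), fun i j hij => ?_, ha.top⟩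
    have h2 := ha.step i j hij
    have h3 := (le_max_right a₀ 4000).trans (ha.pos i)
    nlinarith
  refine hh (vj θ τ e) (vj_zero h0 h1 hC.ini) (fun j => ?_) (fun j => ?_) (fun j hj => ?_)
    n q D l R η false false hw hflt a ha0 haR hgr f hf τ (fun i => ?_) _ (fun S _ N hN => ?_)
  · rcases le_total j m with hj | hj
    · exact vj_ge h0 h1 hC hj
    · rw [vj_fin h0 h1 hC hj]
  · rcases le_total j m with hj | hj
    · exact hM.dp _ (by linarith [hC.up j hj]) (by linarith [hC.lo j hj])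
    · rw [vj_fin h0 h1 hC hj]; exact hM1
  · by_contra hcon
    exact hj (vj_fin h0 h1 hC (by omega))
  · have := hC.small i
    linarith
  · have hf0 : ∀ i z, 0 ≤ f i z := fun i => (hf i).nonneg
    have hfs : ∀ i z, f i z ≠ 0 → z ∈ Kr (q l) (a i) := fun i => (hf i).supp
    have hf1 : ∀ i, ∑ᶠ z, f i z = 1 := fun i => (hf i).sum
    have hsm : Sml q D l a (cf D η S) := fun A hA hV =>
      H135.ND.s_small n q D l R hw m a ha' (cf D η S) A hA hV
    refine ⟨?_, fun hgood => ?_⟩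
    · refine (det_up hw ha' h0 h1 hM hC hk hkn hf0 hfs hf1 hsm hN).trans ?_
      rw [vc_eq hw ha' hk hkn, mul_assoc]
      have h2 : M ^ m ≤ (2 * M) ^ m := pow_le_pow_left₀ (by linarith) (by linarith) m
      refine mul_le_mul_of_nonneg_right h2 ?_
      refine mul_nonneg ?_ (prod_nonneg fun i _ => ?_)
      · rw [← vc_eq hw ha' hk hkn]
        exact prod_nonneg fun _ _ => Real.sqrt_nonneg _
      · unfold Yp
        positivity
    · have h3 := det_lo hw ha' h0 h1 hM hC hk hkn hf0 hfs hf1 hsm hN hgood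
      rw [vc_eq hw ha' hk hkn, mul_assoc] at h3
      exact h3

/-! ### the charges of the two theorems -/

theorem Sj_zero : Sj τ e 0 = e := by
  unfold Sj
  simp

theorem sj_fre {J : ℕ} (hJ : 0 < J) (t : ℝ) : (∀ j ≤ J, Sj (tau2 J t) 0 j = j * (t / J)) ∧
    ∀ j, J ≤ j → j ≤ 2 * J → Sj (tau2 J t) 0 j = (2 * J - j) * (t / J) := by
  have hJ' : (J : ℝ) ≠ 0 := by positivity
  have h1 : ∀ j ≤ J, Sj (tau2 J t) 0 j = j * (t / J) := by
    intro j
    induction j with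
    | zero => intro _; rw [Sj_zero]; simp
    | succ j ih =>
      intro hj
      have h2 := Sj_succ (τ := tau2 J t) (e := 0) ⟨j, by omega⟩
      simp only at h2
      rw [h2, ih (by omega)]
      unfold tau2
      simp only
      rw [if_pos (by omega)]
      push_cast
      ring
  refine ⟨h1, fun j hj => ?_⟩
  obtain ⟨i, rfl⟩ := Nat.exists_eq_add_of_le hj
  clear hj
  induction i with
  | zero =>
    intro _
    rw [add_zero, h1 J le_rfl]
    ring
  | succ i ih =>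
    intro hj
    have h2 := Sj_succ (τ := tau2 J t) (e := 0) ⟨J + i, by omega⟩
    simp only at h2
    rw [← add_assoc, h2, ih (by omega)]
    unfold tau2
    simp only
    rw [if_neg (by omega)]
    push_cast
    ring

theorem chg_fre (h0 : 0 < θ) {J : ℕ} (hJ : 11 ≤ J) : Chg θ (tau2 J (-θ)) 0 := by
  have hJ0 : 0 < J := by omega
  have hJ' : (0 : ℝ) < J := by exact_mod_cast hJ0
  have hJr : (11 : ℝ) ≤ J := by exact_mod_cast hJ
  obtain ⟨h1, h2⟩ := sj_fre hJ0 (-θ)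
  have hx : 0 ≤ θ / J := by positivity
  have hJx : (J : ℝ) * (θ / J) = θ := by field_simp
  have hr : ∀ j ≤ 2 * J, -θ ≤ Sj (tau2 J (-θ)) 0 j ∧ Sj (tau2 J (-θ)) 0 j ≤ 0 := by
    intro j hj
    rcases le_total j J with h | h
    · rw [h1 j h, neg_div]
      have h3 : (j : ℝ) ≤ J := by exact_mod_cast h
      have h4 : (0 : ℝ) ≤ j := by positivity
      constructor <;> nlinarith
    · rw [h2 j h hj, neg_div]
      have h3 : (J : ℝ) ≤ j := by exact_mod_cast h
      have h4 : (j : ℝ) ≤ 2 * J := by exact_mod_cast hj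
      constructor <;> nlinarith
  refine ⟨fun j hj => (hr j hj).1, fun j hj => (hr j hj).2, ?_, Or.inl Sj_zero, fun i => ?_⟩
  · rw [h2 _ (by omega) le_rfl]
    push_cast
    ring
  · have h3 : |tau2 J (-θ) i| = θ / J := by
      unfold tau2
      split_ifs
      · rw [neg_div, abs_neg, abs_of_nonneg hx]
      · rw [neg_div, neg_neg, abs_of_nonneg hx]
    rw [h3]
    exact div_le_div_of_nonneg_left h0.le (by norm_num) hJr

theorem sj_ptp {J : ℕ} (t e : ℝ) : ∀ j ≤ J, Sj (fun _ : Fin J => t) e j = e + j * t := by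
  intro j
  induction j with
  | zero => intro _; rw [Sj_zero]; simp
  | succ j ih =>
    intro hj
    have h2 := Sj_succ (τ := fun _ : Fin J => t) (e := e) ⟨j, by omega⟩
    simp only at h2
    rw [h2, ih (by omega)]
    push_cast
    ring

theorem chg_ptp (h0 : 0 < θ) {J : ℕ} (hJ : 11 ≤ J) : Chg θ (fun _ : Fin J => θ / J) (-θ) := by
  have hJ0 : 0 < J := by omega
  have hJ' : (0 : ℝ) < J := by exact_mod_cast hJ0
  have hJr : (11 : ℝ) ≤ J := by exact_mod_cast hJ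
  have h1 := sj_ptp (J := J) (θ / J) (-θ)
  have hx : 0 ≤ θ / J := by positivity
  have hJx : (J : ℝ) * (θ / J) = θ := by field_simp
  refine ⟨fun j hj => ?_, fun j hj => ?_, ?_, Or.inr Sj_zero, fun i => ?_⟩
  · rw [h1 j hj]
    have h4 : (0 : ℝ) ≤ j := by positivity
    nlinarith
  · rw [h1 j hj]
    have h3 : (j : ℝ) ≤ J := by exact_mod_cast hj
    nlinarith
  · rw [h1 _ le_rfl, hJx]
    ring
  · rw [abs_of_nonneg hx]
    exact div_le_div_of_nonneg_left h0.le (by norm_num) hJr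

theorem dlt_zero (v : ℤ × ℤ) : dlt v 0 = 0 := by
  funext z
  unfold dlt
  split_ifs <;> rfl

/-- **(FRE) from (MR).** -/
theorem fre_of_mr (h0 : 0 < θ) (h1 : θ ≤ Real.pi / 3) (h : S_MR θ P) : S_fre θ P := by
  refine ⟨11, by norm_num, fun J hJ Cm hCm => ?_⟩
  obtain ⟨K0, hK0, hK⟩ := of_mr h0 h1 h (m := 2 * J) (by omega) (chg_fre h0 hJ) hCm
  refine ⟨K0, hK0, fun K hKK => ?_⟩
  obtain ⟨c, C, a₀, hc, hh⟩ := hK K hKK
  refine ⟨c, C, a₀, hc, ?_⟩
  intro n q D k l R η hw hk hkn _ hflt a ha haR hgr f hf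
  have h2 := hh n q D k l R η hw hk hkn hflt a ha haR (fun i j hij hne => hgr i j hij fun hJj => hne ?_)
    f hf
  · rw [dlt_zero] at h2
    exact h2
  · refine vj_zero h0 h1 (Or.inr ?_)
    rw [hJj, (sj_fre (by omega) (-θ)).1 J le_rfl]
    have : (J : ℝ) ≠ 0 := by
      have : 0 < J := by omega
      positivity
    field_simp

/-- **(PTP) from (MR).** -/
theorem ptp_of_mr (h0 : 0 < θ) (h1 : θ ≤ Real.pi / 3) (h : S_MR θ P) : S_ptp θ P := by
  refine ⟨11, by norm_num, fun J hJ Cm hCm => ?_⟩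
  obtain ⟨K0, hK0, hK⟩ := of_mr h0 h1 h (m := J) (by omega) (chg_ptp h0 hJ) hCm
  refine ⟨K0, hK0, fun K hKK => ?_⟩
  obtain ⟨c, C, a₀, hc, hh⟩ := hK K hKK
  refine ⟨c, C, a₀, hc, ?_⟩
  intro n q D k l R η hw hk hkn _ hflt a ha haR hgr f hf
  exact hh n q D k l R η hw hk hkn hflt a ha haR (fun i j hij _ => hgr i j hij) f hf

end Vale.Agent.P167.H208.ND
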