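import Vale.Agent.P167.H208.ND.Zon
import Vale.Agent.P167.H640.ND.Cls
import Vale.Agent.P167.H542.Q.PW

/-!
# P167, general `q`, block Q-ND: the rings as zones
-/

namespace Vale.Agent.P167.H208.ND

open Finset Relation Vale.Agent.P167.BR Vale.Agent.P167
open Vale.Agent.P167.E6 (IsPolygon Encloses)
open Vale.Agent.P167.QX (lo hi exists_xy lo_xy hi_xy wB)
open Vale.Agent.P167.QB (gB Ard sgm ep sum_alt sg_cases sg_xy ard_lp non_cross vis_inner sep_ard
  sgm_sub_bd wB_hx flat_side inn_xy)
open Vale.Agent.P167.H436.ND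
open Vale.Agent.P167.H542 (Geo StD)
open Vale.Agent.P167.H640.ND (mem_Zg mem_sites_Zg econ_Zg zone_sub sep_zn stay Zr_eq)

variable {D : Finset (ℤ × ℤ)} {ω : Cfg} {n m : ℕ} {q : ZMod n → ℤ × ℤ} {A B : Finset Ed}
  {l k : ℕ} {θ : ℝ} {R : ℤ} {a : Fin m → ℤ}

/-! ### the core of a ring -/

/-- A rectangle of sites is connected. -/
theorem rect_conn {K : Set (ℤ × ℤ)} {x0 x1 y0 y1 : ℤ}
    (hK : ∀ z : ℤ × ℤ, z ∈ K ↔ x0 ≤ z.1 ∧ z.1 ≤ x1 ∧ y0 ≤ z.2 ∧ z.2 ≤ y1)
    (hD : ∀ z ∈ K, z ∈ D) : ∀ z ∈ K, ∀ z' ∈ K,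
      ReflTransGen (fun a b => a ∈ K ∧ b ∈ K ∧ StD D a b) z z' := by
  have sym : ∀ {s t : ℤ × ℤ}, ReflTransGen (fun a b => a ∈ K ∧ b ∈ K ∧ StD D a b) s t →
      ReflTransGen (fun a b => a ∈ K ∧ b ∈ K ∧ StD D a b) t s := by
    intro s t h
    induction h with
    | refl => exact ReflTransGen.refl
    | tail _ h ih =>
      obtain ⟨h1, h2, e, he, h3⟩ := h
      exact ReflTransGen.head ⟨h2, h1, e, he, h3.symm⟩ ih
  have hx : ∀ (k : ℕ) (x y : ℤ), (x, y) ∈ K → (x + k, y) ∈ K →
      ReflTransGen (fun a b => a ∈ K ∧ b ∈ K ∧ StD D a b) (x, y) (x + k, y) := by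
    intro k
    induction k with
    | zero => intro x y _ _; simp only [Nat.cast_zero, add_zero]; exact ReflTransGen.refl
    | succ k ih =>
      intro x y h1 h2
      have h1' := (hK _).1 h1
      have h2' := (hK _).1 h2
      simp only at h1' h2'
      have h3 : (x + k, y) ∈ K := (hK _).2 (by simp only; push_cast at h2'; omega)
      refine (ih x y h1 h3).tail ⟨h3, h2, ?_⟩
      have := ec_of (Z := D) (s := (x + k, y)) (r := 0) (Or.inl (by
        rw [E2.face0]; exact hD _ h3))
      rw [E2.dir0] at this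
      have e : ((x + k, y) : ℤ × ℤ) + (1, 0) = (x + ((k + 1 : ℕ) : ℤ), y) := by
        ext
        · simp; ring
        · simp
      rw [e] at this
      exact this
  have hy : ∀ (k : ℕ) (x y : ℤ), (x, y) ∈ K → (x, y + k) ∈ K →
      ReflTransGen (fun a b => a ∈ K ∧ b ∈ K ∧ StD D a b) (x, y) (x, y + k) := by
    intro k
    induction k with
    | zero => intro x y _ _; simp only [Nat.cast_zero, add_zero]; exact ReflTransGen.refl
    | succ k ih =>
      intro x y h1 h2
      have h1' := (hK _).1 h1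
      have h2' := (hK _).1 h2
      simp only at h1' h2'
      have h3 : (x, y + k) ∈ K := (hK _).2 (by simp only; push_cast at h2'; omega)
      refine (ih x y h1 h3).tail ⟨h3, h2, ?_⟩
      have := ec_of (Z := D) (s := (x, y + k)) (r := 1) (Or.inr (by
        rw [E2.f4_1m, E2.face0]; exact hD _ h3))
      rw [E2.dir1] at this
      have e : ((x, y + k) : ℤ × ℤ) + (0, 1) = (x, y + ((k + 1 : ℕ) : ℤ)) := by
        ext
        · simp
        · simp; ring
      rw [e] at this
      exact this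
  intro z hz z' hz'
  have h1 := (hK _).1 hz
  have h2 := (hK _).1 hz'
  have hm : (z'.1, z.2) ∈ K := (hK _).2 (by simp only; omega)
  have p1 : ReflTransGen (fun a b => a ∈ K ∧ b ∈ K ∧ StD D a b) z (z'.1, z.2) := by
    rcases le_total z.1 z'.1 with h | h
    · obtain ⟨k, hk⟩ := Int.le.dest h
      have := hx k z.1 z.2 hz (by rw [hk]; exact hm)
      rwa [hk] at this
    · obtain ⟨k, hk⟩ := Int.le.dest h
      have := hx k z'.1 z.2 hm (by rw [hk]; exact hz)
      rw [hk] at this
      exact sym this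
  have p2 : ReflTransGen (fun a b => a ∈ K ∧ b ∈ K ∧ StD D a b) (z'.1, z.2) z' := by
    rcases le_total z.2 z'.2 with h | h
    · obtain ⟨k, hk⟩ := Int.le.dest h
      have := hy k z'.1 z.2 hm (by rw [hk]; exact hz')
      rwa [hk] at this
    · obtain ⟨k, hk⟩ := Int.le.dest h
      have := hy k z'.1 z'.2 hz' (by rw [hk]; exact hm)
      rw [hk] at this
      exact sym this
  exact p1.trans p2

/-- The boundary sites are joined in the domain. -/
theorem bd_reach (hq : IsPolygon q) (hD : Encloses q D) (j : ℕ) :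
    ReflTransGen (StD D) (q j) (q 0) := by
  induction j with
  | zero => rw [Nat.cast_zero]
  | succ j ih =>
    refine ReflTransGen.head ?_ ih
    refine ⟨be q (j : ZMod n), be_mem hq hD _, ?_⟩
    push_cast
    rcases be_sides hq (j : ZMod n) with ⟨h3, h4⟩ | ⟨h3, h4⟩
    · exact Or.inr ⟨h3, h4⟩
    · exact Or.inl ⟨h4, h3⟩

theorem geo_ring (hw : Win q D l R) {a : ℤ} (ha : 400 ≤ a) (haR : 8 * a ≤ R) :
    Geo D (q 0) (Kr (q l) a) (33 * (kp * a)) := by
  have hF := hw.flat
  have ha' : (400 : ℝ) ≤ a := by exact_mod_cast ha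
  have hsub : hbox (q l) (2 * a) ⊆ D := hbox_sub (hF.mono (by omega))
  refine ⟨?_, ?_, ?_, ?_⟩
  · refine rect_conn (x0 := (q l).1 - a / 4) (x1 := (q l).1 + a / 4) (y0 := (q l).2 + (5 * a + 3) / 4)
      (y1 := (q l).2 + 7 * a / 4) (fun z => ?_) fun z hz => ?_
    · simp only [Kr, Set.mem_ofPred_eq]
      omega
    · simp only [Kr, Set.mem_ofPred_eq] at hz
      apply hsub
      rw [mem_hbox]
      omega
  · intro z hz v hv
    simp only [Kr, Set.mem_ofPred_eq] at hz
    have h1 : nm (v - z) ≤ a / 10 := by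
      have h2 : (nm (v - z) : ℝ) ≤ (a : ℝ) / 10 := by
        refine hv.trans ?_
        unfold kp
        nlinarith
      have h3 : 10 * nm (v - z) ≤ a := by
        have : (10 : ℝ) * nm (v - z) ≤ a := by linarith
        exact_mod_cast this
      omega
    rw [H632.nm_le] at h1
    apply hsub
    rw [mem_hbox]
    simp only [Prod.fst_sub, Prod.snd_sub] at h1
    omega
  · intro z hz
    simp only [Kr, Set.mem_ofPred_eq] at hz
    have h1 : ReflTransGen (Ec (hbox (q l) (2 * a))) z (q l) :=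
      econ_hbox (by omega) _ ((mem_sites_hbox (by omega)).2 (by omega)) _
        ((mem_sites_hbox (by omega)).2 (by omega))
    refine ReflTransGen.trans ?_ (bd_reach hw.poly hw.enc l)
    refine ReflTransGen.mono ?_ _ _ h1
    rintro s t ⟨e, he, h⟩
    exact ⟨e, eds_mono hsub he, h⟩
  · exact (H542.Q.bas_poly hw.poly hw.enc).out

/-! ### the rings as zones -/

/-- The left boundary sites. -/
def sL (l : ℕ) (a : Fin m → ℤ) (i : Fin m) : ℕ := ((l : ℤ) - a i).toNat

/-- The right boundary sites. -/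
def sR (l : ℕ) (a : Fin m → ℤ) (i : Fin m) : ℕ := ((l : ℤ) + a i).toNat

section

variable (hw : Win q D l R) (ha : Scl 4000 4 R a)
include hw ha

theorem range_i (i : Fin m) : 4000 ≤ a i ∧ 8 * a i ≤ R ∧ R ≤ l ∧ l + R ≤ n := by
  have h1 := ha.pos i
  have h2 := ha.top i
  have h3 := flat_range hw.poly hw.enc hw.flat (by omega) hw.l1 hw.off
  refine ⟨h1, h2, ?_, ?_⟩ <;> omega

theorem sL_eq (i : Fin m) : ((sL l a i : ℕ) : ℤ) = l - a i := by
  have := range_i hw ha i
  unfold sL
  rw [Int.toNat_of_nonneg (by omega)]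

theorem sR_eq (i : Fin m) : ((sR l a i : ℕ) : ℤ) = l + a i := by
  have := range_i hw ha i
  unfold sR
  rw [Int.toNat_of_nonneg (by omega)]

theorem a_mono {i j : Fin m} (h : i < j) : 4 * a i ≤ a j := ha.step i j h

/-- **The rings are zones.** -/
theorem zn_ring (hk : (l : ℤ) + R ≤ k) (hkn : k ≤ n) :
    Zn q D l k (fun i => Zr (q l) (a i)) (sL l a) (sR l a) := by
  have hF := hw.flat
  have hl := hw.l1
  have site : ∀ (i : Fin m) (w : ℕ), ((w : ℤ) = l - a i ∨ (w : ℤ) = l + a i) →
      q w ∈ sites (Zr (q l) (a i)) := by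
    intro i w hw'
    obtain ⟨h1, h2, h3, h4⟩ := range_i hw ha i
    obtain ⟨h5, -⟩ := flat_side hw.poly hw.enc hF (by omega) hl hw.off (i := w) (by omega) (by omega)
    rw [Zr_eq, mem_sites_Zg (by omega) (by omega), h5]
    simp only
    omega
  refine ⟨fun i => ?_, fun i => ?_, fun i => ?_, fun i => ?_, fun i => ?_, hkn, hl.le, fun i => ?_,
    fun i => ?_, fun i j hij => ?_⟩
  · obtain ⟨h1, h2, h3, h4⟩ := range_i hw ha i
    exact zone_sub hF (by omega)
  · obtain ⟨h1, h2, h3, h4⟩ := range_i hw ha i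
    exact econ_Zg (by omega) (by omega)
  · have h5 := sL_eq hw ha i
    obtain ⟨h1, h2, h3, h4⟩ := range_i hw ha i
    omega
  · have h5 := sR_eq hw ha i
    obtain ⟨h1, h2, h3, h4⟩ := range_i hw ha i
    omega
  · have h5 := sR_eq hw ha i
    obtain ⟨h1, h2, h3, h4⟩ := range_i hw ha i
    omega
  · exact site i _ (Or.inl (sL_eq hw ha i))
  · exact site i _ (Or.inr (sR_eq hw ha i))
  · rcases hij.lt_or_eq with h | h
    · have h1 := a_mono hw ha h
      have h2 := sL_eq hw ha i
      have h3 := sL_eq hw ha j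
      have h4 := range_i hw ha i
      omega
    · rw [h]

/-- The rings with their cores. -/
theorem rng_ring : Rng D (q 0) (fun i => Zr (q l) (a i)) (fun i => Kr (q l) (a i))
    (fun i => kp * a i) := by
  have hF := hw.flat
  refine ⟨fun i => ?_, fun i => ?_, fun i => ?_, fun i z hz v hv => ?_, fun i => ?_,
    fun i j hij v hv w hw' => ?_⟩
  · obtain ⟨h1, -⟩ := range_i hw ha i
    have : (4000 : ℝ) ≤ a i := by exact_mod_cast h1
    unfold kp
    linarith
  · obtain ⟨h1, h2, h3, h4⟩ := range_i hw ha i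
    exact zone_sub hF (by omega)
  · obtain ⟨h1, h2, h3, h4⟩ := range_i hw ha i
    exact geo_ring hw (by omega) h2
  · obtain ⟨h1, h2, h3, h4⟩ := range_i hw ha i
    have h1' : (4000 : ℝ) ≤ a i := by exact_mod_cast h1
    simp only [Kr, Set.mem_ofPred_eq] at hz
    have h5 : nm (v - z) ≤ a i / 10 := by
      have h2 : (nm (v - z) : ℝ) ≤ (a i : ℝ) / 10 := by
        refine hv.trans ?_
        unfold kp
        nlinarith
      have h3 : 10 * nm (v - z) ≤ a i := by
        have : (10 : ℝ) * nm (v - z) ≤ a i := by linarith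
        exact_mod_cast this
      omega
    rw [H632.nm_le] at h5
    simp only [Prod.fst_sub, Prod.snd_sub] at h5
    show v ∈ Zr (q l) (a i)
    rw [Zr_eq, mem_Zg]
    omega
  · obtain ⟨h1, h2, h3, h4⟩ := range_i hw ha i
    have h1' : (4000 : ℝ) ≤ a i := by exact_mod_cast h1
    refine ⟨((q l).1, (q l).2 + (5 * a i + 3) / 4), ?_, ((q l).1, (q l).2 + 7 * a i / 4), ?_, ?_⟩
    · simp only [Kr, Set.mem_ofPred_eq]
      omega
    · simp only [Kr, Set.mem_ofPred_eq]
      omega
    · have h5 : (a i) / 4 ≤ nm (((q l).1, (q l).2 + (5 * a i + 3) / 4) -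
          ((q l).1, (q l).2 + 7 * a i / 4)) := by
        unfold nm
        refine le_trans ?_ (le_max_right _ _)
        simp only [Prod.snd_sub, Prod.mk_sub_mk]
        rw [abs_sub_comm]
        refine le_trans ?_ (le_abs_self _)
        omega
      have h6 : a i ≤ 8 * nm (((q l).1, (q l).2 + (5 * a i + 3) / 4) -
          ((q l).1, (q l).2 + 7 * a i / 4)) := by omega
      have h7 : (a i : ℝ) ≤ 8 * nm (((q l).1, (q l).2 + (5 * a i + 3) / 4) -
          ((q l).1, (q l).2 + 7 * a i / 4)) := by exact_mod_cast h6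
      unfold kp
      linarith
  · -- distinct rings
    have hv' : v ∈ Zg (q l) (a i) (2 * a i) := hv
    have hw'' : w ∈ Zg (q l) (a j) (2 * a j) := hw'
    rw [mem_Zg] at hv' hw''
    obtain ⟨h1, h2, h3, h4⟩ := range_i hw ha i
    obtain ⟨h1', h2', h3', h4'⟩ := range_i hw ha j
    have key : a i ≤ 4 * nm (v - w) := by
      have hnm := (H632.nm_le (v := v - w) (R := nm (v - w))).1 le_rfl
      simp only [Prod.fst_sub, Prod.snd_sub] at hnm
      rcases lt_or_gt_of_ne hij with h | h
      · have := a_mono hw ha h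
        omega
      · have := a_mono hw ha h
        omega
    have h5 : (a i : ℝ) ≤ 4 * nm (v - w) := by exact_mod_cast key
    have h6 : (4000 : ℝ) ≤ a i := by exact_mod_cast h1
    unfold kp
    linarith

end

end Vale.Agent.P167.H208.ND
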