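import Vale.Agent.P167.H208.ND.Blk
import Vale.Agent.P167.H436.ND.Defs

/-!
# P167, general `q`, block Q-ND: the classes of the strands which avoid a family of zones

`Zn q D l k Z s r`: the zones `Z i` are connected sets of squares with a boundary site `q (s i)` on the
left and `q (r i)` on the right of `q l`, the sites `s i` decrease. The strands around `q l` which avoid
the zones are divided into the classes `Cl0 j` = the strands around the first `j` zones. The product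
`Wv` of the weights over all pieces which avoid the zones is a product over the classes, of order one
from below; it does not decrease by more than a factor `4 ^ m` if the zones are made smaller.
-/

namespace Vale.Agent.P167.H208.ND

open Finset Relation Vale.Agent.P167.BR
open Vale.Agent.P167.E6 (IsPolygon Encloses)
open Vale.Agent.P167.QX (lo hi exists_xy lo_xy hi_xy wB)
open Vale.Agent.P167.QB (gB Ard sgm ep sum_alt sg_cases sg_xy ard_lp non_cross vis_inner sep_ard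
  sgm_sub_bd wB_hx)
open Vale.Agent.P167.H436.ND (Wv)

variable {D : Finset (ℤ × ℤ)} {ω : Cfg} {n m : ℕ} {q : ZMod n → ℤ × ℤ} {A B : Finset Ed}
  {l k : ℕ} {θ : ℝ} {Z Z' : Fin m → Finset (ℤ × ℤ)} {s r : Fin m → ℕ}

/-- Zones around the boundary site `q l`. -/
structure Zn (q : ZMod n → ℤ × ℤ) (D : Finset (ℤ × ℤ)) (l k : ℕ) (Z : Fin m → Finset (ℤ × ℤ))
    (s r : Fin m → ℕ) : Prop where
  sub : ∀ i, Z i ⊆ D
  con : ∀ i, ECon (Z i)
  sl : ∀ i, s i ≤ l
  lr : ∀ i, l ≤ r i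
  rk : ∀ i, r i ≤ k
  kn : k ≤ n
  ln : l ≤ n
  ms : ∀ i, q (s i) ∈ sites (Z i)
  mr : ∀ i, q (r i) ∈ sites (Z i)
  anti : ∀ i j, i ≤ j → s j ≤ s i

/-- The strands around `q l` which surround the first `j` zones and do not visit them. -/
def PU (q : ZMod n → ℤ × ℤ) (l : ℕ) (Z : Fin m → Finset (ℤ × ℤ)) (s : Fin m → ℕ) (j : ℕ)
    (A : Finset Ed) : Prop := Ard q l A ∧ ∀ i : Fin m, (i : ℕ) < j → Ard q (s i) A ∧ ¬ Vz (Z i) A

/-- The strands around `q l` which surround or visit one of the other zones. -/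
def PV (q : ZMod n → ℤ × ℤ) (l : ℕ) (Z : Fin m → Finset (ℤ × ℤ)) (s : Fin m → ℕ) (j : ℕ)
    (A : Finset Ed) : Prop := Ard q l A ∧ ∃ i : Fin m, j ≤ (i : ℕ) ∧ (Ard q (s i) A ∨ Vz (Z i) A)

section

variable (hq : IsPolygon q) (hD : Encloses q D) (hZ : Zn q D l k Z s r)
include hq hD hZ

theorem up_PU (j : ℕ) : Up q D ω l (PU q l Z s j) where
  ard A _ h := h.1
  up A hA h B hB hBl hlo := by
    refine ⟨hBl, fun i hi => ?_⟩
    have := (up_U hq hD (ω := ω) (hZ.sub i) (hZ.con i) (hZ.sl i) hZ.ln (hZ.ms i)).up A hA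
      ⟨h.1, h.2 i hi⟩ B hB hBl hlo
    exact this.2

theorem up_PV (j : ℕ) : Up q D ω l (PV q l Z s j) where
  ard A _ h := h.1
  up A hA h B hB hBl hlo := by
    obtain ⟨h1, i, hi, h2⟩ := h
    have := (up_V hq hD (ω := ω) (hZ.sub i) (hZ.con i) (hZ.sl i) hZ.ln (hZ.ms i)).up A hA
      ⟨h1, h2⟩ B hB hBl hlo
    exact ⟨hBl, i, hi, this.2⟩

/-- A piece which does not visit the zone separates all of its sites from the base or none. -/
theorem sep_iff (i : Fin m) (hA : A ∈ pcs ω D) (hV : ¬ Vz (Z i) A) {z : ℤ × ℤ}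
    (hz : z ∈ sites (Z i)) : Sep D A z (q 0) ↔ Ard q (s i) A := by
  rw [← sep_ard hq hD hA ((hZ.sl i).trans hZ.ln)]
  constructor
  · rintro ⟨u, hu, h⟩
    exact ⟨u, hu, by rwa [← pot_zone hu (hZ.sub i) hV (hZ.con i _ hz _ (hZ.ms i))]⟩
  · rintro ⟨u, hu, h⟩
    exact ⟨u, hu, by rwa [pot_zone hu (hZ.sub i) hV (hZ.con i _ hz _ (hZ.ms i))]⟩

theorem ard_r (i : Fin m) (hA : A ∈ pcs ω D) (hV : ¬ Vz (Z i) A) :
    Ard q (r i) A ↔ Ard q (s i) A := by
  rw [← sep_iff hq hD hZ i hA hV (hZ.mr i), sep_ard hq hD hA ((hZ.rk i).trans hZ.kn)]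

theorem ard_l (i : Fin m) (hA : A ∈ pcs ω D) (hV : ¬ Vz (Z i) A) (h : Ard q (s i) A) :
    Ard q l A := by
  have h2 := (ard_r hq hD hZ i hA hV).2 h
  have h3 := hZ.sl i
  have h4 := hZ.lr i
  unfold Ard at *
  omega

/-- The mass of a charge in the zone. -/
theorem mass_i (i : Fin m) (hA : A ∈ pcs ω D) (hV : ¬ Vz (Z i) A) {f : ℤ × ℤ → ℝ}
    (hf : ∀ z, f z ≠ 0 → z ∈ sites (Z i)) :
    mass D (q 0) f A = (open Classical in if Ard q (s i) A then ∑ᶠ z, f z else 0) := by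
  classical
  have hs : Function.support f ⊆ (sites D : Set (ℤ × ℤ)) := fun z hz => sites_mono (hZ.sub i) (hf z hz)
  rw [finsum_eq_sum_of_support_subset f hs]
  unfold mass
  by_cases h : Ard q (s i) A
  · rw [if_pos h]
    refine sum_congr rfl fun z _ => ?_
    by_cases hz : f z = 0
    · simp [hz]
    · rw [if_pos ((sep_iff hq hD hZ i hA hV (hf z hz)).2 h)]
  · rw [if_neg h]
    refine sum_eq_zero fun z _ => ?_
    by_cases hz : f z = 0
    · simp [hz]
    · rw [if_neg (fun h' => h ((sep_iff hq hD hZ i hA hV (hf z hz)).1 h'))]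

end

/-! ### classes -/

open Classical in
/-- The number of zones which `A` surrounds. -/
noncomputable def cls (q : ZMod n → ℤ × ℤ) (s : Fin m → ℕ) (A : Finset Ed) : ℕ :=
  (univ.filter (fun i : Fin m => Ard q (s i) A)).card

theorem card_lt {j : ℕ} (hj : j ≤ m) : (univ.filter (fun i : Fin m => (i : ℕ) < j)).card = j := by
  rw [← card_map Fin.valEmbedding]
  have : (univ.filter (fun i : Fin m => (i : ℕ) < j)).map Fin.valEmbedding = range j := by
    ext t
    simp only [mem_map, mem_filter, mem_univ, true_and, Fin.valEmbedding_apply, mem_range]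
    constructor
    · rintro ⟨i, h, rfl⟩; exact h
    · intro h; exact ⟨⟨t, by omega⟩, h, rfl⟩
  rw [this, card_range]

theorem cls_le (A : Finset Ed) : cls q s A ≤ m := by
  classical
  unfold cls
  exact (card_le_univ _).trans (by simp)

/-- The class of a piece which surrounds exactly the first `j` zones. -/
theorem cls_eq {j : ℕ} (hj : j ≤ m) (h : ∀ i : Fin m, Ard q (s i) A ↔ (i : ℕ) < j) :
    cls q s A = j := by
  classical
  unfold cls
  rw [← card_lt hj]
  congr 1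
  ext i
  simp only [mem_filter, mem_univ, true_and]
  exact h i

/-- The strands around `q l` surround the first zones. -/
theorem cls_iff (hsl : ∀ i, s i ≤ l) (hs : ∀ i j : Fin m, i ≤ j → s j ≤ s i) (h : Ard q l A)
    (i : Fin m) : Ard q (s i) A ↔ (i : ℕ) < cls q s A := by
  classical
  have key : ∀ i : Fin m, Ard q (s i) A ↔ lo q A < s i := fun i => by
    have := hsl i
    unfold Ard at *
    omega
  -- the first zone which is not surrounded
  have hex : ∃ j ≤ m, ∀ i : Fin m, Ard q (s i) A ↔ (i : ℕ) < j := by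
    by_cases hall : ∀ i : Fin m, Ard q (s i) A
    · exact ⟨m, le_rfl, fun i => ⟨fun _ => i.2, fun _ => hall i⟩⟩
    · push Not at hall
      obtain ⟨i0, hi0⟩ := hall
      have hne : ∃ t : ℕ, ∃ h : t < m, ¬ Ard q (s ⟨t, h⟩) A := ⟨i0, i0.2, hi0⟩
      refine ⟨Nat.find hne, (Nat.find_spec hne).1.le, fun i => ⟨fun h1 => ?_, fun h1 => ?_⟩⟩
      · obtain ⟨h2, h3⟩ := Nat.find_spec hne
        by_contra hcon
        have h4 := hs ⟨Nat.find hne, h2⟩ i (by rw [Fin.le_def]; simp only; omega)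
        rw [key] at h1 h3
        omega
      · by_contra hcon
        exact Nat.find_min hne h1 ⟨i.2, hcon⟩
  obtain ⟨j, hj, h1⟩ := hex
  rw [cls_eq hj h1]
  exact h1 i

section

variable (hq : IsPolygon q) (hD : Encloses q D) (hZ : Zn q D l k Z s r)
include hq hD hZ

omit hq hD in
/-- The classes are blocks. -/
theorem cls_blk (j : ℕ) (hj : j ≤ m) :
    ((∀ i, ¬ Vz (Z i) A) ∧ Ard q l A ∧ cls q s A = j) ↔ (PU q l Z s j A ∧ ¬ PV q l Z s j A) := by
  constructor
  · rintro ⟨h1, h2, h3⟩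
    have h4 := cls_iff hZ.sl hZ.anti h2
    rw [h3] at h4
    refine ⟨⟨h2, fun i hi => ⟨(h4 i).2 hi, h1 i⟩⟩, ?_⟩
    rintro ⟨-, i, hi, h5 | h5⟩
    · have := (h4 i).1 h5
      omega
    · exact h1 i h5
  · rintro ⟨⟨h1, h2⟩, h3⟩
    have h4 : ∀ i : Fin m, j ≤ (i : ℕ) → ¬ Ard q (s i) A ∧ ¬ Vz (Z i) A := by
      intro i hi
      constructor
      · intro h5; exact h3 ⟨h1, i, hi, Or.inl h5⟩
      · intro h5; exact h3 ⟨h1, i, hi, Or.inr h5⟩
    refine ⟨fun i => ?_, h1, cls_eq hj fun i => ⟨fun h5 => ?_, fun h5 => (h2 i h5).1⟩⟩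
    · rcases lt_or_ge (i : ℕ) j with h5 | h5
      · exact (h2 i h5).2
      · exact (h4 i h5).2
    · by_contra h6
      exact (h4 i (by omega)).1 h5

/-- The strands of the inner classes have both ends on the free side. -/
theorem cls_hi {j : ℕ} (hj : j < m) (hA : A ∈ pcs ω D) (h1 : PU q l Z s j A)
    (h2 : ¬ PV q l Z s j A) : hi q A < k := by
  have hVZ : ¬ Vz (Z ⟨j, hj⟩) A := fun h => h2 ⟨h1.1, ⟨j, hj⟩, le_rfl, Or.inr h⟩
  have hAr : ¬ Ard q (s ⟨j, hj⟩) A := fun h => h2 ⟨h1.1, ⟨j, hj⟩, le_rfl, Or.inl h⟩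
  rw [← ard_r hq hD hZ _ hA hVZ] at hAr
  have h3 := hZ.lr ⟨j, hj⟩
  have h4 := hZ.rk ⟨j, hj⟩
  have h5 := h1.1
  unfold Ard at *
  omega

open Classical in
/-- **The product over the pieces which avoid the zones and the product of the class weights.** -/
theorem wv_cmp (h0 : 0 < θ) (h1 : θ ≤ Real.pi / 3) {x v : ℕ → ℝ} (hx0 : ∀ j ≤ m, 0 ≤ x j)
    (hx1 : ∀ j ≤ m, x j ≤ θ) (hxm : x m = 0) (hv : ∀ j, v j = Real.sqrt (dpx θ (x j)))
    (hv0 : v 0 = 1) {M : ℝ} (hM1 : 1 / Real.sin θ ≤ M) (hM2 : 1 / Real.sin (2 * θ) ≤ M)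
    (hM3 : ∀ j ≤ m, v j ≤ M) (ω : Cfg) {mF : Finset Ed → ℝ}
    (hmF : ∀ A ∈ pcs ω D, (∀ i, ¬ Vz (Z i) A) → mF A = if Ard q l A then -(x (cls q s A)) else 0) :
    ∏ A ∈ (pcs ω D).filter (fun A => ∀ i, ¬ Vz (Z i) A), wB θ (gB θ) q D k A (mF A) ≤
      M ^ m * ∏ A ∈ (pcs ω D).filter (fun A => ∀ i, ¬ Vz (Z i) A), v (cls q s A) ∧
    ∏ A ∈ (pcs ω D).filter (fun A => ∀ i, ¬ Vz (Z i) A), v (cls q s A) ≤ (2 * M) ^ m *
      ∏ A ∈ (pcs ω D).filter (fun A => ∀ i, ¬ Vz (Z i) A), wB θ (gB θ) q D k A (mF A) := by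
  have hpi := Real.pi_pos
  have hs : 0 < Real.sin θ := Real.sin_pos_of_pos_of_lt_pi h0 (by linarith)
  have hc : 0 < Real.cos θ := Real.cos_pos_of_mem_Ioo ⟨by linarith, by linarith⟩
  have hM1' : 1 ≤ M := by
    refine le_trans ?_ hM1
    rw [le_div_iff₀ hs, one_mul]
    exact Real.sin_le_one _
  have hM0 : 0 < M := by linarith
  set av := (pcs ω D).filter (fun A => ∀ i, ¬ Vz (Z i) A) with hav
  -- the strands around `q l`
  have red : ∀ g : Finset Ed → ℝ, (∀ A ∈ av, ¬ Ard q l A → g A = 1) →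
      ∏ A ∈ av, g A = ∏ j ∈ range (m + 1), ∏ A ∈ (pcs ω D).filter (fun A => PU q l Z s j A ∧
        ¬ PV q l Z s j A), g A := by
    intro g hg
    rw [← prod_filter_mul_prod_filter_not av (fun A => Ard q l A)]
    rw [prod_eq_one (s := av.filter fun A => ¬ Ard q l A) fun A hA => hg A (mem_filter.1 hA).1
      (mem_filter.1 hA).2, mul_one]
    rw [← prod_fiberwise_of_maps_to (t := range (m + 1)) (g := cls q s) (fun A _ => by
      rw [mem_range]; exact Nat.lt_succ_of_le (cls_le A))]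
    refine prod_congr rfl fun j hj => prod_congr ?_ fun _ _ => rfl
    rw [mem_range] at hj
    ext A
    simp only [hav, mem_filter]
    rw [← cls_blk hZ j (by omega)]
    tauto
  have r1 := red (fun A => wB θ (gB θ) q D k A (mF A)) fun A hA hl => by
    rw [hav, mem_filter] at hA
    rw [hmF A hA.1 hA.2, if_neg hl, wB_hx hs hc]
  have r2 := red (fun A => v (cls q s A)) fun A hA hl => by
    rw [hav, mem_filter] at hA
    have : cls q s A = 0 := by
      unfold cls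
      rw [card_eq_zero, filter_eq_empty_iff]
      intro i _ h2
      exact hl (ard_l hq hD hZ i hA.1 (hA.2 i) h2)
    rw [this, hv0]
  -- the classes
  have cl : ∀ j ≤ m, ∀ A ∈ (pcs ω D).filter (fun A => PU q l Z s j A ∧ ¬ PV q l Z s j A),
      mF A = -(x j) ∧ v (cls q s A) = v j := by
    intro j hj A hA
    rw [mem_filter] at hA
    obtain ⟨h2, h3, h4⟩ := (cls_blk hZ j hj).2 hA.2
    rw [hmF A hA.1 h2, if_pos h3, h4]
    exact ⟨rfl, rfl⟩
  have c1 : ∀ j ≤ m, ∏ A ∈ (pcs ω D).filter (fun A => PU q l Z s j A ∧ ¬ PV q l Z s j A),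
      wB θ (gB θ) q D k A (mF A) = ∏ A ∈ (pcs ω D).filter (fun A => PU q l Z s j A ∧
        ¬ PV q l Z s j A), wB θ (gB θ) q D k A (-(x j)) := fun j hj =>
    prod_congr rfl fun A hA => by rw [(cl j hj A hA).1]
  have c2 : ∀ j ≤ m, ∏ A ∈ (pcs ω D).filter (fun A => PU q l Z s j A ∧ ¬ PV q l Z s j A),
      v (cls q s A) = ∏ _A ∈ (pcs ω D).filter (fun A => PU q l Z s j A ∧
        ¬ PV q l Z s j A), Real.sqrt (dpx θ (x j)) := fun j hj =>
    prod_congr rfl fun A hA => by rw [(cl j hj A hA).2, hv]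
  have lastw : ∏ A ∈ (pcs ω D).filter (fun A => PU q l Z s m A ∧ ¬ PV q l Z s m A),
      wB θ (gB θ) q D k A (mF A) = 1 := by
    rw [c1 m le_rfl, hxm, neg_zero]
    exact prod_eq_one fun A _ => wB_hx hs hc A
  have hd0 : dpx θ 0 = 1 := by
    unfold dpx
    have hs2 : 0 < Real.sin (2 * θ) := Real.sin_pos_of_pos_of_lt_pi (by linarith) (by linarith)
    rw [add_zero, sub_zero, div_self hs.ne', div_self hs2.ne', one_mul]
  have lastv : ∏ A ∈ (pcs ω D).filter (fun A => PU q l Z s m A ∧ ¬ PV q l Z s m A),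
      v (cls q s A) = 1 := by
    rw [c2 m le_rfl, hxm, hd0, Real.sqrt_one]
    exact prod_eq_one fun _ _ => rfl
  have b : ∀ j ∈ range m, _ := fun j hj => blk_cmp (k := k) (M := M) (x := x j) hq hD h0 h1 hZ.ln
    (up_PU hq hD hZ (ω := ω) j) (up_PV hq hD hZ (ω := ω) j)
    (fun A hA h2 h3 => cls_hi hq hD hZ (mem_range.1 hj) hA h2 h3) (hx0 j (mem_range.1 hj).le)
    (hx1 j (mem_range.1 hj).le) hM1 hM2 (by rw [← hv]; exact hM3 j (mem_range.1 hj).le)
  have pos : ∀ j ∈ range m, 0 ≤ ∏ A ∈ (pcs ω D).filter (fun A => PU q l Z s j A ∧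
      ¬ PV q l Z s j A), wB θ (gB θ) q D k A (-(x j)) := by
    intro j hj
    have h2 := (b j hj).2
    have h3 : 0 ≤ ∏ _A ∈ (pcs ω D).filter (fun A => PU q l Z s j A ∧ ¬ PV q l Z s j A),
      Real.sqrt (dpx θ (x j)) := prod_nonneg fun _ _ => Real.sqrt_nonneg _
    by_contra h4
    nlinarith
  rw [r1, r2, prod_range_succ, prod_range_succ, lastw, lastv, mul_one, mul_one]
  rw [prod_congr rfl fun j hj => c1 j (mem_range.1 hj).le,
    prod_congr (s₁ := range m) rfl fun j hj => c2 j (mem_range.1 hj).le]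
  constructor
  · have h2 : M ^ m * ∏ j ∈ range m, ∏ _A ∈ (pcs ω D).filter (fun A => PU q l Z s j A ∧
        ¬ PV q l Z s j A), Real.sqrt (dpx θ (x j)) = ∏ j ∈ range m, (M *
        ∏ _A ∈ (pcs ω D).filter (fun A => PU q l Z s j A ∧ ¬ PV q l Z s j A),
          Real.sqrt (dpx θ (x j))) := by
      rw [prod_mul_distrib, prod_const, card_range]
    rw [h2]
    exact prod_le_prod pos fun j hj => (b j hj).1
  · have h2 : (2 * M) ^ m * ∏ j ∈ range m, ∏ A ∈ (pcs ω D).filter (fun A => PU q l Z s j A ∧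
        ¬ PV q l Z s j A), wB θ (gB θ) q D k A (-(x j)) = ∏ j ∈ range m, (2 * M *
        ∏ A ∈ (pcs ω D).filter (fun A => PU q l Z s j A ∧ ¬ PV q l Z s j A),
          wB θ (gB θ) q D k A (-(x j))) := by
      rw [prod_mul_distrib, prod_const, card_range]
    rw [h2]
    exact prod_le_prod (fun j _ => prod_nonneg fun _ _ => Real.sqrt_nonneg _) fun j hj => (b j hj).2

end

end Vale.Agent.P167.H208.ND
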